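import Vale.Agent.P144D.I.N3.Low

/-!
The reference solution at a marked vertex.
-/

namespace Vale.Agent.P144Z

open Finset Matrix

namespace IN3

open B2a

theorem DX.congr {ρ : ℕ} {W W' : ℤ × ℤ → ℤ × ℤ → ℝ} {c : ℤ × ℤ → Fin 4 → ℝ} {u w : ℤ × ℤ → ℝ}
    {x₀ : ℤ × ℤ} {a₀ : Fin 4} (h : DX ρ W c u w x₀ a₀)
    (hW : ∀ f g, zd f 0 ≤ ρ + 1 → zd g 0 ≤ ρ + 1 → W f g = W' f g) : DX ρ W' c u w x₀ a₀ := by
  have z : ∀ {f : ℤ × ℤ} (a : Fin 4), zd f 0 ≤ ρ → zd (f - st4 a) 0 ≤ ρ + 1 := fun a hf => by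
    rw [sub_eq_add_neg, ← st_st]; exact zd_st hf _
  exact ⟨h.pot, fun v a hv k => h.v1 v a hv (by rwa [hW _ _ (zd_cn hv _).1 (zd_cn hv _).1]),
    fun v a hv k => h.v0 v a hv (by rwa [hW _ _ (zd_cn hv _).1 (zd_cn hv _).1]),
    fun f a hf k => h.g1 f a hf (by rwa [hW _ _ (by omega) (z a hf)]),
    fun f a hf k => h.gT f a hf (by rwa [hW _ _ (by omega) (z a hf)])⟩

variable {M : ℕ} [NeZero M]

theorem exists_sol (A : Gauge M) (s : Tor M × Fin 4) :
    ∃ φ : Tor M × Fin 4 → ℝ, φ ≠ 0 ∧ ∀ t, t ≠ s → (Dm A *ᵥ φ) t = 0 := by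
  by_cases h : (Dm A).det = 0
  · obtain ⟨φ, h1, h2⟩ := Matrix.exists_mulVec_eq_zero_iff.2 h
    exact ⟨φ, h1, fun t _ => by rw [h2]; rfl⟩
  · have k : Dm A *ᵥ ((Dm A)⁻¹ *ᵥ Pi.single s 1) = Pi.single s 1 := by
      rw [mulVec_mulVec, mul_nonsing_inv _ (Ne.isUnit h), one_mulVec]
    refine ⟨(Dm A)⁻¹ *ᵥ Pi.single s 1, fun h0 => ?_, fun t ht => by rw [k, Pi.single_eq_of_ne ht]⟩
    rw [h0, mulVec_zero] at k
    simpa using congrFun k s

omit [NeZero M] in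
theorem phi_zero {φ : Tor M × Fin 4 → ℝ} {x : Tor M} (h : ∀ k, chi φ x k = 0) (a : Fin 4) :
    φ (x, a) = 0 := by
  have k := two_phi φ x a
  rw [h, h] at k
  linarith

omit [NeZero M] in
theorem pw_hedge (I : Finset (Tor M)) (z : Tor M) (v : ℤ × ℤ) (a : Fin 4) :
    pwI I (hedge (z + prj M v, a)) =
      if z + prj M (v - cn (a - 1)) ∈ I ∨ z + prj M (v - cn a) ∈ I then 1 else 0 := by
  have hA : pwI I = wF fun f g => if f ∈ I ∨ g ∈ I then 1 else 0 := by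
    funext e
    simp [wF, Reg.pw]
  rw [hA, wF_hedge fun f g => by simp only [or_comm], G.prj_sub, G.prj_sub, add_sub_assoc,
    add_sub_assoc]

theorem pr_symm (I : ℤ × ℤ → Prop) (v : ℤ × ℤ) (a : Fin 4) :
    I (v + st4 a - cn (a + 2 - 1)) ∨ I (v + st4 a - cn (a + 2)) ↔
      I (v - cn (a - 1)) ∨ I (v - cn a) := by
  rw [f1, faceL, faceR, or_comm]

/-- The field and its pair. -/
theorem exists_field {I : Finset (Tor M)} {κ : ℝ} {ρ : ℕ} {z : Tor M} {e : Fin 4}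
    {S : Set (ℤ × ℤ)} {ν : ℂ} (hC : Cn S ν e κ)
    (hI : ∀ v, zd v 0 ≤ 8 * ρ → (z + prj M v ∈ I ↔ v ∈ S)) (hM : 32 * ρ ≤ M) (hρ : 16 ≤ ρ) :
    ∃ φ u w, Hom (pwI I) z ρ φ ∧ WP S e (4 * ρ) ρ (fun v => chi φ (z + prj M v)) u w ∧
      0 < u (xs e (4 * ρ)) := by
  classical
  obtain ⟨F, hF⟩ : ∃ F : Tor M → Tor M → ℝ,
      F = fun f g => WW S e (4 * ρ) ρ (lft (f - z)) (lft (g - z)) := ⟨_, rfl⟩
  have hs : ∀ f g, F f g = F g f := fun f g => by simp only [hF]; exact WW_symm _ _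
  have hT := hC.top hρ
  have hW : ∀ f g, zd f 0 ≤ 4 * ρ + 3 + 1 → zd g 0 ≤ 4 * ρ + 3 + 1 →
      F (z + prj M f) (z + prj M g) = WW S e (4 * ρ) ρ f g := fun f g hf hg => by
    simp only [hF]
    rw [lft_eq z hf (by omega), lft_eq z hg (by omega)]
  have hE : ∀ v a, zd v 0 ≤ 4 * ρ + 3 → wF F (hedge (z + prj M v, a)) =
      WW S e (4 * ρ) ρ (v - cn (a - 1)) (v - cn a) := fun v a hv => by
    rw [wF_hedge hs, add_sub_assoc, add_sub_assoc, ← G.prj_sub, ← G.prj_sub,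
      hW _ _ (zd_cn hv _).1 (zd_cn hv _).1]
  obtain ⟨x1, x2⟩ := zd_xs e (4 * ρ)
  have x3 := (zd_cn (le_refl (zd (xs e (4 * ρ)) 0)) (e + 1)).1
  have ne : ∀ x : Tor M, tdist x z + 1 < 4 * ρ ∨ 4 * ρ + 1 < tdist x z →
      x ≠ z + prj M (xs e (4 * ρ)) := fun x h1 h2 => by
    rw [h2, ← zd_lft, lft_eq z x2 (by omega)] at h1
    omega
  obtain ⟨φ, hφ, hD⟩ := exists_sol (wF F) (z + prj M (xs e (4 * ρ)), e)
  obtain ⟨u, w, hd⟩ := (eqX_of hs (ρ := 4 * ρ + 3 + 2) (by omega) (by omega) hD (by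
    rw [hE _ _ (by omega)]
    exact WW_out hT (not_JJ' (xs_face e _).1) (not_JJ' (xs_face e _).2))).dx
  obtain ⟨u, w, h⟩ := exists_WP (by omega) hT hC.down (hd.congr hW)
  refine ⟨φ, u, w, fun t ht => ?_, h, h.U_nonneg.lt_of_ne fun h0 => hφ ?_⟩
  · obtain ⟨x, a⟩ := t
    have k := hD (x, a) fun k => ne x (.inl (by simp only at ht; omega)) (Prod.mk.inj k).1
    have k1 := two_Dm (wF F) φ x a
    have k2 := two_Dm (pwI I) φ x a
    obtain ⟨v, hv, rfl⟩ : ∃ v, zd v 0 ≤ ρ ∧ x = z + prj M v :=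
      ⟨lft (x - z), by rwa [zd_lft], (G.add_prj_lft x z).symm⟩
    have z1 := (zd_cn hv (a - 1)).1
    have z2 := (zd_cn hv a).1
    have e1 : pwI I (hedge (z + prj M v, a)) = wF F (hedge (z + prj M v, a)) := by
      rw [pw_hedge, hE _ _ (by omega), WW, if_neg (c := Wr _ _ _ _ _)]
      · refine if_congr (or_congr ?_ ?_) rfl rfl
        · rw [hI _ (by omega)]
          exact ⟨fun k => ⟨k, by omega⟩, fun k => k.1⟩
        · rw [hI _ (by omega)]
          exact ⟨fun k => ⟨k, by omega⟩, fun k => k.1⟩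
      · rintro (k | k) <;> have := top_zd h.hl k.1 <;> omega
    rw [e1, ← k1, k] at k2
    linarith
  · funext ⟨x, a⟩
    refine phi_zero (fun k => ?_) a
    by_cases hx : tdist x z ≤ 4 * ρ + 1
    · obtain ⟨v, hv, rfl⟩ : ∃ v, zd v 0 ≤ 4 * ρ + 1 ∧ x = z + prj M v :=
        ⟨lft (x - z), by rwa [zd_lft], (G.add_prj_lft x z).symm⟩
      have k1 := h.dx.pot v k (by omega)
      have k2 := h.u_le (v := v) (by omega)
      have k3 := h.w_nonneg (zd_cn hv k).1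
      exact pow_eq_zero_iff (two_ne_zero) |>.1 (le_antisymm (by linarith) (sq_nonneg _))
    · have far : ∀ j, ¬ JJ S (4 * ρ) (lft (x - prj M (cn j) - z)) := fun j => not_JJ (by
        have t1 := tdist_triangle x (x - prj M (cn j)) z
        have t2 := td_le (x - prj M (cn j)) (HomDec.zd_cn j)
        rw [sub_add_cancel] at t2
        rw [zd_lft]
        omega)
      refine zero_of_rem (d := chi φ x) (fun a => ?_) k
      have k1 := two_Dm (wF F) φ x a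
      rw [hD (x, a) fun k => ne x (.inr (by omega)) (Prod.mk.inj k).1, wF_hedge hs, hF] at k1
      simp only [WW_out hT (far _) (far _)] at k1
      linarith

omit [NeZero M] in
theorem l2sq_smul (X : Finset (Tor M)) (t : ℝ) (φ : Tor M × Fin 4 → ℝ) :
    l2sq X (t • φ) = t ^ 2 * l2sq X φ := by
  simp only [l2sq, Pi.smul_apply, smul_eq_mul, mul_pow, mul_sum]

end IN3

open IN3 B2a in
/-- The reference solution. -/
theorem refStmt_of (hH : HarnStmt) (hP : HopfStmt) : RefStmt := by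
  obtain ⟨c₀, hc₀, C, hC5, H⟩ := low hH hP
  obtain ⟨C₁, hC₁, H₁⟩ := HomDec.l2_of_sup 7 (by norm_num)
  obtain ⟨C₂, hC₂, H₂⟩ := chi_cmp
  refine ⟨c₀ / (2 * C₁ * C₂), by positivity, C, fun M _ I κ ρ z e k0 k1 hk hM hρ => ?_⟩
  obtain ⟨S, ν, hν, hE, he, hI⟩ := hk.cone
  have en : ∀ k, z - prj M (cn k) = z + prj M (-cn k) := fun k => by
    rw [HomDec.prj_neg, sub_eq_add_neg]
  have zc : ∀ k, zd (-cn k) 0 ≤ 8 * ρ := fun k => by
    rw [zd_neg]; have := HomDec.zd_cn k; omega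
  have hC : Cn S ν e κ := ⟨hν, hE, he, k0, k1, hk.touch.imp fun k h => by
    rwa [en, hI _ (zc k)] at h, fun h => hk.rem.2 (by rwa [en, hI _ (zc _)])⟩
  obtain ⟨φ, u, w, hom, h, U0⟩ := exists_field hC hI hM (by omega)
  obtain ⟨L1, L2⟩ := H S ν e κ ρ _ u w hC hρ h
  have sub : ∀ v, zd v 0 + 1 ≤ 2 * ρ + 3 → 0 ≤ ∑ a, GG u ((⟨I, false⟩ : Reg M).pr z) v a ∧
      ∑ k, chi φ (z + prj M v) k ^ 2 ≤ 7 * ∑ a, |GG u ((⟨I, false⟩ : Reg M).pr z) v a| := by
    intro v hv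
    have z1 := fun k => (zd_cn (le_refl (zd v 0)) k).1
    have j : ∀ k, z + prj M (v - cn k) ∈ I ↔ JJ S (4 * ρ) (v - cn k) := fun k => by
      have := z1 k
      rw [hI _ (by omega)]
      exact ⟨fun k => ⟨k, by omega⟩, fun k => k.1⟩
    refine h.sub (by omega) (fun k => ?_) (fun a k => ?_) fun a => ?_
    · have := (zd_xs e (4 * ρ)).1
      have := z1 (e + 1)
      rw [k] at this hv
      omega
    · have := z1 a
      have := z1 (a - 1)
      rcases k with k | k <;> have := top_zd h.hl k.1 <;> omega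
    · simp only [Reg.pr, Bool.false_eq_true, if_false, j]
  have pair : IsPair (2 * ρ + 3) u w ((⟨I, false⟩ : Reg M).pr z) ((⟨I, false⟩ : Reg M).out z) := by
    refine ⟨fun v k hv => ?_, fun v hv ho => ?_, fun v a hp => ?_, fun v a => ?_,
      fun v hv => (sub v hv).1, fun v hv ho => ?_⟩
    · linarith [h.dx.pot v k (by omega), sq_nonneg (chi φ (z + prj M v) k)]
    · exact h.out v (by omega) fun k => ho ((hI v (by omega)).2 k.1)
    · exact not_or.1 hp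
    · exact pr_symm (fun v => z + prj M v ∈ I) v a
    · exact h.sup' ((hI v (by omega)).1 (not_not.1 ho)) (by omega)
  have up := H₁ M ⟨I, false⟩ z φ u w ρ (2 * ρ + 3) (u (xs e (4 * ρ))) pair le_rfl
    (fun v hv => (sub v hv).2) fun v hv => by
      have t1 := h.dx.pot v 0 (by omega)
      have t2 := h.w_nonneg (v := v - cn 0) (by have := (zd_cn hv 0).1; omega)
      rw [abs_of_nonneg (by linarith [sq_nonneg (chi φ (z + prj M v) 0)])]
      exact h.u_le (by omega)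
  generalize u (xs e (4 * ρ)) = U at L1 L2 U0 up
  have r1 : (1 : ℝ) ≤ ρ := by exact_mod_cast (by omega : 1 ≤ ρ)
  obtain ⟨t, ht⟩ : ∃ t : ℝ, t ^ 2 * (2 * C₁ * U) = 1 :=
    ⟨(√(2 * C₁ * U))⁻¹, by
      rw [inv_pow, Real.sq_sqrt (by positivity), inv_mul_cancel₀ (by positivity)]⟩
  have t0 : 0 ≤ t ^ 2 := sq_nonneg t
  have fin : ∀ x y : ℝ, c₀ * U * x ≤ C₂ * y → c₀ / (2 * C₁ * C₂) * x ≤ t ^ 2 * y := fun x y k => by
    rw [div_mul_eq_mul_div, div_le_iff₀ (by positivity)]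
    have k2 := mul_le_mul_of_nonneg_left k (show 0 ≤ t ^ 2 * (2 * C₁) by positivity)
    calc c₀ * x = t ^ 2 * (2 * C₁) * (c₀ * U * x) := by linear_combination -(c₀ * x) * ht
      _ ≤ _ := by linarith
  refine ⟨t • φ, fun s hs => by rw [mulVec_smul, Pi.smul_apply, hom s hs, smul_zero], ?_,
    fun s h1 h2 => ?_, fun h1 => ?_⟩
  · rw [l2sq_smul]
    have k2 : C₁ * (ρ + 1) * U ≤ 2 * C₁ * U * ρ := by nlinarith [mul_pos (by linarith : 0 < C₁) U0]
    calc _ ≤ t ^ 2 * (2 * C₁ * U * ρ) := mul_le_mul_of_nonneg_left (up.trans k2) t0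
      _ = ρ := by linear_combination ρ * ht
  · have s1 : 1 ≤ s := by
      have c5 : (512 : ℝ) ≤ C := by exact_mod_cast hC5
      have : (1 : ℝ) ≤ s := by nlinarith [mul_nonneg k0.le (Nat.cast_nonneg (α := ℝ) ρ)]
      exact_mod_cast this
    have k2 := HomDec.sum_box_le (⟨I, false⟩ : Reg M) z (s := s - 1) (by omega)
      (fun y k => chi φ y k ^ 2) fun _ _ => sq_nonneg _
    have k3 : ∑ y ∈ ball z s, ∑ k, chi φ y k ^ 2 ≤ C₂ * l2sq (ball z s) φ := by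
      rw [l2sq, mul_sum]
      exact sum_le_sum fun y _ => (H₂ M φ y).2
    rw [Nat.sub_add_cancel s1] at k2
    have k4 := (L1 s h1 h2).trans (mul_le_mul_of_nonneg_left (k2.trans k3) (Nat.cast_nonneg ρ))
    rw [l2sq_smul, mul_left_comm]
    exact fin _ _ (by linarith)
  · have k2 := L2 h1
    have k3 := two_Dm (pwI I) φ z (e + 2)
    have k4 := two_phi φ z (e + 2)
    have k5 := pw_hedge I z 0 (e + 2)
    rw [G.prj_zero, add_zero, zero_sub, zero_sub, ← en, ← en, f1, if_neg (not_or.2 hk.rem)] at k5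
    rw [hom (z, e + 2) (by simp [tdist_self]), k5] at k3
    simp only [G.prj_zero, add_zero] at k2
    have k6 : chi φ z (e + 2) = -φ (z, e + 2) := by linarith
    rw [k6, neg_sq] at k2
    have k7 := fin 1 (ρ * φ (z, e + 2) ^ 2) (by
      nlinarith [mul_nonneg (Nat.cast_nonneg (α := ℝ) ρ) (sq_nonneg (φ (z, e + 2)))])
    rw [Pi.smul_apply, smul_eq_mul, mul_pow, mul_left_comm]
    linarith

end Vale.Agent.P144Z
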