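import Vale.Agent.P144D.I.N3.Dat

/-!
The pair of the Green function with a source on a removed half-edge.
-/

namespace Vale.Agent.P144Z

open Finset Matrix

namespace IN3

open B2a

/-- A function that does not change along the steps outside a square is constant there. -/
theorem ring_const {T R : ℕ} (hR : T < R) (g : ℤ × ℤ → ℝ)
    (h : ∀ v a, zd v 0 ≤ R → zd (v + st4 a) 0 ≤ R → T < zd v 0 → T < zd (v + st4 a) 0 →
      g (v + st4 a) = g v) : ∀ v, zd v 0 ≤ R → T < zd v 0 → g v = g (R, R) := by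
  have lt : ∀ v : ℤ × ℤ, T < zd v 0 ↔ (T : ℤ) < |v.1| ∨ (T : ℤ) < |v.2| := fun v => by
    simp only [zd, Prod.fst_zero, Prod.snd_zero, sub_zero, ← Int.natCast_natAbs]
    omega
  have V : ∀ (x : ℤ) (n : ℕ), (T : ℤ) < |x| → |x| ≤ R → n ≤ 2 * R → g (x, R - n) = g (x, R) := by
    intro x n h1 h2
    rw [abs_le] at h2
    induction n with
    | zero => intro _; simp
    | succ n ih =>
      intro hn
      have e : ((x, (R : ℤ) - (n + 1 : ℕ)) : ℤ × ℤ) + st4 1 = (x, (R : ℤ) - n) := by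
        ext <;> simp [st4]
        ring
      rw [← ih (by omega), ← e]
      refine (h _ 1 ?_ ?_ ?_ ?_).symm
      · rw [zd_le]; simp only; omega
      · rw [e, zd_le]; simp only; omega
      · exact (lt _).2 (.inl h1)
      · rw [e]; exact (lt _).2 (.inl h1)
  have H : ∀ (y : ℤ) (n : ℕ), (T : ℤ) < |y| → |y| ≤ R → n ≤ 2 * R → g (R - n, y) = g (R, y) := by
    intro y n h1 h2
    rw [abs_le] at h2
    induction n with
    | zero => intro _; simp
    | succ n ih =>
      intro hn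
      have e : (((R : ℤ) - (n + 1 : ℕ), y) : ℤ × ℤ) + st4 0 = ((R : ℤ) - n, y) := by
        ext <;> simp [st4]
        ring
      rw [← ih (by omega), ← e]
      refine (h _ 0 ?_ ?_ ?_ ?_).symm
      · rw [zd_le]; simp only; omega
      · rw [e, zd_le]; simp only; omega
      · exact (lt _).2 (.inr h1)
      · rw [e]; exact (lt _).2 (.inr h1)
  have hT : (T : ℤ) < |(R : ℤ)| := by rw [abs_of_nonneg (by omega)]; omega
  have hT' : |(R : ℤ)| ≤ R := by rw [abs_of_nonneg (by omega)]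
  rintro ⟨x, y⟩ h1 h2
  rw [zd_le] at h1
  simp only at h1
  obtain ⟨m, rfl⟩ : ∃ m : ℕ, x = R - m := ⟨(R - x).toNat, by omega⟩
  obtain ⟨n, rfl⟩ : ∃ n : ℕ, y = R - n := ⟨(R - y).toNat, by omega⟩
  rcases (lt _).1 h2 with k | k
  · rw [V _ n k (abs_le.2 (by omega)) (by omega), H _ m hT hT' (by omega)]
  · rw [H _ m k (abs_le.2 (by omega)) (by omega), V _ n hT hT' (by omega)]

variable {ρ : ℕ} {W : ℤ × ℤ → ℤ × ℤ → ℝ} {c : ℤ × ℤ → Fin 4 → ℝ} {x₀ : ℤ × ℤ} {a₀ : Fin 4}
  {u w : ℤ × ℤ → ℝ}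

/-- The function on the faces does not change across removed edges. -/
theorem DX.adj (h : DX ρ W c u w x₀ a₀) {f : ℤ × ℤ} {a : Fin 4} (hf : zd f 0 + 1 ≤ ρ)
    (hW : W (f + st4 a) f = 0) : w (f + st4 a) = w f := by
  have e1 : f + cn (a + 1) - cn (a + 1 - 1) = f + st4 a := by
    rw [add_sub_cancel_right, ← st_cn]; abel
  have k := (h.v0 (f + cn (a + 1)) (a + 1)
    (by have := (zd_cn (le_refl (zd f 0)) (a + 1)).2; omega) (by
      rw [e1, add_sub_cancel_right, hW])).1
  rwa [e1, add_sub_cancel_right] at k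

/-- Subharmonicity at the vertices without exceptional edges. -/
theorem DX.sub (h : DX ρ W c u w x₀ a₀) {pr : ℤ × ℤ → Fin 4 → Prop} {v : ℤ × ℤ} (hv : zd v 0 ≤ ρ)
    (hne : v ≠ x₀) (h1 : ∀ a, pr v a → W (v - cn (a - 1)) (v - cn a) = 1)
    (h0 : ∀ a, ¬ pr v a → W (v - cn (a - 1)) (v - cn a) = 0 ∧ w (v - cn a) = 0) :
    0 ≤ ∑ a, GG u pr v a ∧ ∑ k, c v k ^ 2 ≤ 7 * ∑ a, |GG u pr v a| := by
  have key : ∀ a, GG u pr v a = FQ 1 (c v) a := by
    intro a
    unfold GG
    split_ifs with hp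
    · exact h.v1 v a hv (h1 a hp)
    · rw [← (h.v0 v a hv (h0 a hp).1).2 fun k => hne (Prod.mk.inj k).1, ← h.pot v a (by omega),
        (h0 a hp).2, sub_zero]
  simp only [key]
  exact Dat.vest c v

theorem fest (d : Fin 4 → ℝ) : 0 ≤ ∑ a, FQ 1 d a := (FQ_est (by simp) (by simp) d).1

/-- Superharmonicity at the faces with four ordinary edges. -/
theorem DX.sup (h : DX ρ W c u w x₀ a₀) {f : ℤ × ℤ} (hf : zd f 0 ≤ ρ)
    (h1 : ∀ a, W f (f + st4 a) = 1) : SupH w f := by
  have e : ∀ a, w (f + st4 (a + 2)) - w f = -FQ 1 (fun k => c (f + cn k) k) a := fun a => by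
    have k := h1 (a + 2)
    rw [st_st, ← sub_eq_add_neg] at k ⊢
    rw [← h.g1 f a hf k]; ring
  unfold SupH
  rw [← sum_rot]
  simp only [e, sum_neg_distrib]
  linarith [fest fun k => c (f + cn k) k]

theorem min_of_sup {w : ℤ × ℤ → ℝ} {v : ℤ × ℤ} (h : SupH w v)
    (hm : ∀ a, -w (v + st4 a) ≤ -w v) : -w v ≤ -w (v + st4 0) := by
  unfold SupH at h
  rw [Fin.sum_univ_four] at h
  linarith [hm 1, hm 2, hm 3]

end IN3

open IN3 B2a in
/-- The pair of the Green function. -/
theorem srcStmt : SrcStmt := by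
  classical
  intro M _ I T x₀ a₀ φ hI hc hM hT hx h0 hφ
  obtain ⟨F, hF⟩ : ∃ F : Tor M → Tor M → ℝ, F = fun f g => if f ∈ I ∨ g ∈ I then 1 else 0 :=
    ⟨_, rfl⟩
  have hA : pwI I = wF F := by
    funext e
    simp [hF, wF, Reg.pw]
  have hs : ∀ f g, F f g = F g f := fun f g => by simp only [hF, or_comm]
  rw [hA] at h0 hφ
  obtain ⟨u, w, hd⟩ := (eqX_of hs (z := 0) (ρ := 20 * T + 3 + 2) (φ := φ) (x₀ := x₀) (a₀ := a₀)
    (by omega) (by omega) (fun t ht => by
      rw [hφ, Pi.single_eq_of_ne (by rwa [zero_add] at ht)]) (by rwa [zero_add])).dx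
  simp only [zero_add] at hd
  have far : ∀ v, zd v 0 ≤ 20 * T + 2 → T < zd v 0 → prj M v ∉ I := fun v h1 h2 h3 => by
    have k := hI _ h3
    rw [← zd_lft, ← zero_add (prj M v), lft_eq 0 h1 (by omega)] at k
    omega
  have adj : ∀ f a, zd f 0 ≤ 20 * T + 2 → prj M f ∉ I → prj M (f + st4 a) ∉ I →
      w (f + st4 a) = w f := fun f a h1 h2 h3 =>
    hd.adj (by omega) (by simp only [hF]; rw [if_neg (by tauto)])
  obtain ⟨κ, hκ⟩ := cst (I := I) (z := 0) le_rfl (by omega) hc w (by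
    rintro v e h1 _ h3 h4 (rfl | rfl) <;> simp only [zero_add] at h3 h4
    · exact adj v 0 (by omega) h3 h4
    · exact adj v 1 (by omega) h3 h4)
  simp only [zero_add] at hκ
  have rg := ring_const (T := T) (R := 20 * T + 2) (by omega) w fun v a h1 h2 h3 h4 =>
    adj v a h1 (far _ h1 h3) (far _ h2 h4)
  have hz : zd ((T : ℤ) + 1, (T : ℤ) + 1) 0 = T + 1 := by
    simp only [zd, Prod.fst_zero, Prod.snd_zero, sub_zero]
    omega
  have out : ∀ v, zd v 0 ≤ 20 * T + 2 → prj M v ∉ I → w v - κ = 0 := fun v h1 h2 => by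
    by_cases h3 : zd v 0 ≤ T + 1
    · rw [hκ v h3 h2, sub_self]
    · rw [rg v h1 (by omega), ← rg (T + 1, T + 1) (by omega) (by omega),
        hκ _ hz.le (far _ (by omega) (by omega)), sub_self]
  replace hd := hd.shift κ
  have sup : ∀ v, zd v 0 ≤ 20 * T + 2 → prj M v ∈ I → SupH (fun v => w v - κ) v := fun v h1 h2 =>
    hd.sup (by omega) fun a => by simp only [hF]; rw [if_pos (.inl h2)]
  have pos := maxp_box (20 * T + 1) (fun v => -(w v - κ))
    (fun v hv => by rw [out v (by omega) (far v (by omega) (by omega)), neg_zero])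
    fun v hv h1 h2 => min_of_sup (w := fun v => w v - κ) (sup v (by omega) (by
      by_contra k
      rw [out v (by omega) k, neg_zero] at h1
      exact lt_irrefl _ h1)) h2
  have r0 : prj M (x₀ - cn a₀) ∉ I := fun k => by
    rw [wF_hedge hs, ← G.prj_sub, ← G.prj_sub, hF] at h0
    simp [k] at h0
  refine ⟨fun v => u v - κ, fun v => w v - κ, fun v k hv => hd.pot v k (by omega),
    fun v hv => ⟨neg_nonpos.1 (pos v hv), out v (by omega), sup v (by omega)⟩, ?_,
    fun v hv hne => ?_⟩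
  · have k := hd.pot x₀ a₀ (by omega)
    have k1 := two_Dm (wF F) φ (prj M x₀) a₀
    have k2 := two_phi φ (prj M x₀) a₀
    have k3 := src_mul (A := wF F) (φ := φ) (s := (prj M x₀, a₀)) fun t ht => by
      rw [hφ, Pi.single_eq_of_ne ht]
    rw [out _ (by have := (zd_cn hx a₀).1; omega) r0, sub_zero] at k
    rw [hφ, Pi.single_eq_same] at k1 k3
    rw [h0] at k1
    have k4 : chi φ (prj M x₀) a₀ = 1 := by linarith
    beta_reduce
    rw [k, k4, one_pow]
  · refine hd.sub (by omega) hne (fun a hp => ?_) fun a hp => ?_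
    · simp only [Reg.pr, zero_add, Bool.false_eq_true, if_false] at hp
      simp only [hF]
      rw [if_pos hp]
    · simp only [Reg.pr, zero_add, Bool.false_eq_true, if_false] at hp
      simp only [hF]
      exact ⟨if_neg hp, out _ (by have := (zd_cn (le_refl (zd v 0)) a).1; omega)
        fun k => hp (.inr k)⟩

end Vale.Agent.P144Z
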