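import Vale.Agent.P144D.I.DefsN
import Vale.Agent.P144D.B.Pair
import Vale.Agent.P144D.B.Max
import Vale.Agent.P144Z.E1.Easy

/-!
The potential of a field that solves all equations except the one at a removed half-edge.
-/

namespace Vale.Agent.P144Z

open Finset Matrix

namespace IN3

open B2a

/-- The sign of the first corner of a half-edge. -/
def sg (a : Fin 4) : ℝ := ![-1, 1, 1, 1] a

/-- The orientation of a half-edge. -/
def sd (a : Fin 4) : ℝ := ![1, 1, -1, -1] a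

/-- The equation at the half-edge `(v, a)` of weight `q`. -/
def HE (q : ℝ) (c : ℤ × ℤ → Fin 4 → ℝ) (v : ℤ × ℤ) (a : Fin 4) : Prop :=
  sg a * c v (a - 1) + c v a +
    tc * q * (sd a * (sg (a + 2) * c (v + st4 a) (a + 1) - c (v + st4 a) (a + 2))) = 0

theorem sg_sq (a : Fin 4) : sg a * sg a = 1 := by fin_cases a <;> simp [sg]

theorem sd_sq (a : Fin 4) : sd a * sd a = 1 := by fin_cases a <;> simp [sd]

theorem sd_add (a : Fin 4) : sd (a + 2) = -sd a := by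
  fin_cases a <;> simp [sd]

theorem f1 (a : Fin 4) : a + 2 - 1 = a + 1 := by fin_cases a <;> rfl

theorem f2 (a : Fin 4) : a + 2 + 1 = a - 1 := by fin_cases a <;> rfl

theorem f3 (a : Fin 4) : a + 2 + 2 = a := by fin_cases a <;> rfl

theorem back (v : ℤ × ℤ) (a : Fin 4) : v + st4 a + st4 (a + 2) = v := by
  rw [st_st, add_neg_cancel_right]

theorem faceL (v : ℤ × ℤ) (a : Fin 4) : v + st4 a - cn (a + 1) = v - cn a := by
  rw [← st_cn]; abel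

theorem faceR (v : ℤ × ℤ) (a : Fin 4) : v + st4 a - cn (a + 2) = v - cn (a - 1) := by
  rw [← st_cn']; abel

theorem ed_of {q : ℝ} {c : ℤ × ℤ → Fin 4 → ℝ} {v : ℤ × ℤ} {a : Fin 4} (h1 : HE q c v a)
    (h2 : HE q c (v + st4 a) (a + 2)) :
    Ed (tc * (q * 1)) (sg a * c v (a - 1)) (c v a) (sd a * (sg (a + 2) * c (v + st4 a) (a + 1)))
      (sd a * c (v + st4 a) (a + 2)) := by
  unfold HE at h1 h2
  rw [f1, f2, f3, back, sd_add] at h2
  refine ⟨by linear_combination h1, ?_⟩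
  linear_combination sd a * h2 + (tc * q * (sg a * c v (a - 1) - c v a)) * sd_sq a

theorem FQ_v (d : Fin 4 → ℝ) (a : Fin 4) : FQ 1 d a =
    (sg a * d (a - 1)) ^ 2 + d a ^ 2 + 2 * √2 * (sg a * d (a - 1) * d a) := by
  match a with
  | 0 => rw [show (0 : Fin 4) - 1 = 3 from rfl]; simp [FQ, sg]; ring
  | 1 => simp [FQ, sg]
  | 2 => simp [FQ, sg]
  | 3 => simp [FQ, sg]

theorem FQ_f (d : Fin 4 → ℝ) (a : Fin 4) : FQ 1 d (a + 1) =
    d a ^ 2 + (sd a * (sg (a + 2) * d (a + 1))) ^ 2 +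
      2 * √2 * 1 * (d a * (sd a * (sg (a + 2) * d (a + 1)))) := by
  match a with
  | 0 => simp [FQ, sg, sd]
  | 1 => simp [FQ, sg, sd]
  | 2 => simp [FQ, sg, sd]
  | 3 => simp [FQ, sg, sd]; ring

theorem sg_pow (a : Fin 4) (x : ℝ) : (sg a * x) ^ 2 = x ^ 2 := by
  linear_combination x ^ 2 * sg_sq a

theorem sd_pow (a : Fin 4) (x : ℝ) : (sd a * x) ^ 2 = x ^ 2 := by
  linear_combination x ^ 2 * sd_sq a

/-- The equations with weights `W f g` on the edge between the faces `f` and `g`; the equation at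
the removed half-edge `(x₀, a₀)` is replaced by the equality of the squares. -/
structure EqX (ρ : ℕ) (W : ℤ × ℤ → ℤ × ℤ → ℝ) (c : ℤ × ℤ → Fin 4 → ℝ) (x₀ : ℤ × ℤ)
    (a₀ : Fin 4) : Prop where
  symm : ∀ f g, W f g = W g f
  he : ∀ v a, zd v 0 ≤ ρ → (v, a) ≠ (x₀, a₀) → HE (W (v - cn (a - 1)) (v - cn a)) c v a
  rem : W (x₀ - cn (a₀ - 1)) (x₀ - cn a₀) = 0
  sq : c x₀ (a₀ - 1) ^ 2 = c x₀ a₀ ^ 2

variable {ρ : ℕ} {W : ℤ × ℤ → ℤ × ℤ → ℝ} {c : ℤ × ℤ → Fin 4 → ℝ} {x₀ : ℤ × ℤ} {a₀ : Fin 4}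

theorem EqX.rev (h : EqX ρ W c x₀ a₀) (v : ℤ × ℤ) (a : Fin 4) :
    W (v + st4 a - cn (a + 2 - 1)) (v + st4 a - cn (a + 2)) = W (v - cn (a - 1)) (v - cn a) := by
  rw [f1, faceL, faceR, h.symm]

theorem EqX.zero (h : EqX ρ W c x₀ a₀) {v : ℤ × ℤ} {a : Fin 4} (hv : zd v 0 ≤ ρ)
    (hW : W (v - cn (a - 1)) (v - cn a) = 0) (hne : (v, a) ≠ (x₀, a₀)) :
    sg a * c v (a - 1) = -c v a := by
  have k := h.he v a hv hne
  unfold HE at k
  rw [hW] at k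
  linear_combination k

theorem EqX.zero_sq (h : EqX ρ W c x₀ a₀) {v : ℤ × ℤ} {a : Fin 4} (hv : zd v 0 ≤ ρ)
    (hW : W (v - cn (a - 1)) (v - cn a) = 0) : c v (a - 1) ^ 2 = c v a ^ 2 := by
  by_cases hne : (v, a) = (x₀, a₀)
  · obtain ⟨rfl, rfl⟩ := Prod.mk.inj hne
    exact h.sq
  · rw [← sg_pow a, h.zero hv hW hne, neg_sq]

theorem EqX.ed (h : EqX ρ W c x₀ a₀) {v : ℤ × ℤ} {a : Fin 4} (hv : zd v 0 ≤ ρ)
    (hv' : zd (v + st4 a) 0 ≤ ρ) (hW : W (v - cn (a - 1)) (v - cn a) ≠ 0) :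
    Ed (tc * (W (v - cn (a - 1)) (v - cn a) * 1)) (sg a * c v (a - 1)) (c v a)
      (sd a * (sg (a + 2) * c (v + st4 a) (a + 1))) (sd a * c (v + st4 a) (a + 2)) := by
  refine ed_of (h.he v a hv fun k => ?_) ?_
  · obtain ⟨rfl, rfl⟩ := Prod.mk.inj k
    exact hW h.rem
  · rw [← h.rev]
    refine h.he _ _ hv' fun k => ?_
    obtain ⟨rfl, rfl⟩ := Prod.mk.inj k
    exact hW ((h.rev v a).symm.trans h.rem)

theorem EqX.closed (h : EqX ρ W c x₀ a₀) {v : ℤ × ℤ} {a : Fin 4} (hv : zd v 0 ≤ ρ)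
    (hv' : zd (v + st4 a) 0 ≤ ρ) :
    c v (a - 1) ^ 2 - c v a ^ 2 = c (v + st4 a) (a + 2) ^ 2 - c (v + st4 a) (a + 1) ^ 2 := by
  by_cases hW : W (v - cn (a - 1)) (v - cn a) = 0
  · have k := h.zero_sq hv' ((h.rev v a).trans hW)
    rw [f1] at k
    rw [h.zero_sq hv hW, k, sub_self, sub_self]
  · have k := (h.ed hv hv' hW).closed
    rwa [sd_pow, sd_pow, sg_pow, sg_pow] at k

/-- The increments of the potential. -/
structure DX (ρ : ℕ) (W : ℤ × ℤ → ℤ × ℤ → ℝ) (c : ℤ × ℤ → Fin 4 → ℝ) (u w : ℤ × ℤ → ℝ)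
    (x₀ : ℤ × ℤ) (a₀ : Fin 4) : Prop where
  pot : ∀ v k, zd v 0 ≤ ρ + 1 → u v - w (v - cn k) = c v k ^ 2
  v1 : ∀ v a, zd v 0 ≤ ρ → W (v - cn (a - 1)) (v - cn a) = 1 →
    u (v + st4 a) - u v = FQ 1 (c v) a
  v0 : ∀ v a, zd v 0 ≤ ρ → W (v - cn (a - 1)) (v - cn a) = 0 →
    w (v - cn (a - 1)) = w (v - cn a) ∧
      ((v, a) ≠ (x₀, a₀) → -(2 * tc) * c v a ^ 2 = FQ 1 (c v) a)
  g1 : ∀ f a, zd f 0 ≤ ρ → W f (f - st4 a) = 1 →
    w f - w (f - st4 a) = FQ 1 (fun k => c (f + cn k) k) a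
  gT : ∀ f a, zd f 0 ≤ ρ → W f (f - st4 a) = tT → u (f + cn (a - 1)) = u (f + cn a) ∧
    -(2 * tc) * c (f + cn a) a ^ 2 = FQ 1 (fun k => c (f + cn k) k) a

theorem DX.shift {u w : ℤ × ℤ → ℝ} (h : DX ρ W c u w x₀ a₀) (κ : ℝ) :
    DX ρ W c (fun v => u v - κ) (fun v => w v - κ) x₀ a₀ where
  pot v k hv := by rw [← h.pot v k hv]; ring
  v1 v a hv hW := by rw [← h.v1 v a hv hW]; ring
  v0 v a hv hW := ⟨by rw [(h.v0 v a hv hW).1], (h.v0 v a hv hW).2⟩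
  g1 f a hf hW := by rw [← h.g1 f a hf hW]; ring
  gT f a hf hW := ⟨by rw [(h.gT f a hf hW).1], (h.gT f a hf hW).2⟩

theorem zd_st {v : ℤ × ℤ} {r : ℕ} (h : zd v 0 ≤ r) (a : Fin 4) : zd (v + st4 a) 0 ≤ r + 1 :=
  (B1a1.zd_step v a).trans (Nat.add_le_add_right h 1)

theorem EqX.eg (h : EqX (ρ + 2) W c x₀ a₀) {u w : ℤ × ℤ → ℝ}
    (hp : ∀ v k, zd v 0 ≤ ρ + 1 → u v - w (v - cn k) = c v k ^ 2) {v : ℤ × ℤ} {a : Fin 4}
    (hv : zd v 0 ≤ ρ + 1) (hv' : zd (v + st4 a) 0 ≤ ρ + 1)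
    (hW : W (v - cn (a - 1)) (v - cn a) ≠ 0) :
    Eg (W (v - cn (a - 1)) (v - cn a)) 1 (sg a * c v (a - 1)) (c v a)
      (sd a * (sg (a + 2) * c (v + st4 a) (a + 1))) (sd a * c (v + st4 a) (a + 2)) (u v)
      (u (v + st4 a)) (w (v - cn a)) (w (v - cn (a - 1))) :=
  ⟨h.ed (by omega) (by omega) hW, mul_one 1, by rw [sg_pow, hp v _ hv], hp v a hv,
    by rw [sd_pow, sg_pow, ← hp _ _ hv', faceL], by rw [sd_pow, ← hp _ _ hv', faceR]⟩

theorem tT_ne_zero : tT ≠ 0 := by linarith [two_le_tT, show (0 : ℝ) < 2 from two_pos]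

theorem EqX.dx (h : EqX (ρ + 2) W c x₀ a₀) : ∃ u w, DX ρ W c u w x₀ a₀ := by
  obtain ⟨u, w, hp⟩ := exists_pot (ρ + 1) (fun v k => c v k ^ 2)
    (fun v h1 h2 => h.closed (a := 0) h1 h2) fun v h1 h2 => h.closed (a := 1) h1 h2
  have ef : ∀ (f : ℤ × ℤ) (a : Fin 4), f + cn a - cn a = f ∧ f + cn a - cn (a - 1) =
      f - st4 (a + 1) ∧ f + cn a + st4 a = f + cn (a + 1) := fun f a =>
    ⟨by abel, by fin_cases a <;> ext <;> simp [cn, st4], by rw [← st_cn]; abel⟩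
  have eg : ∀ (f : ℤ × ℤ) (a : Fin 4), zd f 0 ≤ ρ → W f (f - st4 (a + 1)) ≠ 0 →
      Eg (W f (f - st4 (a + 1))) 1 (sg a * c (f + cn a) (a - 1)) (c (f + cn a) a)
        (sd a * (sg (a + 2) * c (f + cn (a + 1)) (a + 1))) (sd a * c (f + cn (a + 1)) (a + 2))
        (u (f + cn a)) (u (f + cn (a + 1))) (w f) (w (f - st4 (a + 1))) := by
    intro f a hf hW
    obtain ⟨e1, e2, e3⟩ := ef f a
    have k := h.eg hp (v := f + cn a) (a := a) (zd_cn hf a).2 (by rw [e3]; exact (zd_cn hf _).2)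
      (by rw [e1, e2, h.symm]; exact hW)
    rwa [e1, e2, e3, h.symm] at k
  refine ⟨u, w, hp, fun v a hv hW => ?_, fun v a hv hW => ⟨?_, fun hne => ?_⟩,
    fun f a hf hW => ?_, fun f a hf hW => ?_⟩
  · rw [FQ_v]
    exact ((h.eg hp (by omega) (zd_st hv a) (by rw [hW]; exact one_ne_zero)).one hW).1
  · linarith [hp v (a - 1) (by omega), hp v a (by omega), h.zero_sq (by omega) hW]
  · rw [FQ_v, h.zero (by omega) hW hne, opp]
  · obtain ⟨a, rfl⟩ : ∃ b, a = b + 1 := ⟨a - 1, by simp⟩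
    rw [FQ_f]
    exact ((eg f a hf (by rw [hW]; exact one_ne_zero)).one hW).2.2.1
  · obtain ⟨a, rfl⟩ : ∃ b, a = b + 1 := ⟨a - 1, by simp⟩
    have k := (eg f a hf (by rw [hW]; exact tT_ne_zero)).top hW
    rw [add_sub_cancel_right, FQ_f, ← k.2.1, sd_pow, sg_pow]
    exact ⟨k.1, rfl⟩

variable {M : ℕ} [NeZero M]

omit [NeZero M] in
theorem prj_st (x : Tor M) : x + prj M (st4 0) = x + uv M 0 ∧ x + prj M (st4 1) = x + uv M 1 ∧
    x + prj M (st4 2) = x - uv M 0 ∧ x + prj M (st4 3) = x - uv M 1 := by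
  refine ⟨?_, ?_, ?_, ?_⟩ <;> ext <;> simp [prj, st4, uv, sub_eq_add_neg]

/-- The operator in terms of the corner values. -/
theorem two_Dm (A : Gauge M) (φ : Tor M × Fin 4 → ℝ) (x : Tor M) (a : Fin 4) :
    2 * (Dm A *ᵥ φ) (x, a) = sg a * chi φ x (a - 1) + chi φ x a + tc * A (hedge (x, a)) *
      (sd a * (sg (a + 2) * chi φ (x + prj M (st4 a)) (a + 1) -
        chi φ (x + prj M (st4 a)) (a + 2))) := by
  obtain ⟨e0, e1, e2, e3⟩ := prj_st x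
  match a with
  | 0 =>
    rw [E4.Dm0, e0, show (0 : Fin 4) - 1 = 3 from rfl]
    simp [sg, sd, hedge, chi0, chi1, chi2, chi3]; ring
  | 1 =>
    rw [E4.Dm1, e1]
    simp [sg, sd, hedge, chi0, chi1, chi2, chi3]; ring
  | 2 =>
    rw [E4.Dm2, e2]
    simp [sg, sd, hedge, chi0, chi1, chi2, chi3]; ring
  | 3 =>
    rw [E4.Dm3, e3]
    simp [sg, sd, hedge, chi0, chi1, chi2, chi3]; ring

omit [NeZero M] in
theorem two_phi (φ : Tor M × Fin 4 → ℝ) (x : Tor M) (a : Fin 4) :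
    2 * φ (x, a) = sg a * chi φ x (a - 1) - chi φ x a := by
  match a with
  | 0 => rw [show (0 : Fin 4) - 1 = 3 from rfl]; simp [sg, chi0, chi3]; ring
  | 1 => simp [sg, chi0, chi1]; ring
  | 2 => simp [sg, chi1, chi2]; ring
  | 3 => simp [sg, chi2, chi3]; ring

/-- The weights given by a function of the two faces. -/
def wF (F : Tor M → Tor M → ℝ) : Gauge M := fun e => F e.1 (oth e)

omit [NeZero M] in
theorem wF_hedge {F : Tor M → Tor M → ℝ} (hF : ∀ f g, F f g = F g f) (x : Tor M) (a : Fin 4) :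
    wF F (hedge (x, a)) = F (x - prj M (cn (a - 1))) (x - prj M (cn a)) := by
  have c0 : x - prj M (cn 0) = x := by ext <;> simp [prj, cn]
  have c1 : x - prj M (cn 1) = x - uv M 0 := by ext <;> simp [prj, cn, uv]
  have c2 : x - prj M (cn 2) = x - uv M 0 - uv M 1 := by ext <;> simp [prj, cn, uv]
  have c3 : x - prj M (cn 3) = x - uv M 1 := by ext <;> simp [prj, cn, uv]
  match a with
  | 0 => rw [show (0 : Fin 4) - 1 = 3 from rfl, c3, c0, hF]; rfl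
  | 1 => rw [show (1 : Fin 4) - 1 = 0 from rfl, c0, c1]; rfl
  | 2 => rw [show (2 : Fin 4) - 1 = 1 from rfl, c1, c2]; rfl
  | 3 => rw [show (3 : Fin 4) - 1 = 2 from rfl, c2, c3, hF, sub_right_comm]; rfl

theorem dot_self (A : Gauge M) (φ : Tor M × Fin 4 → ℝ) : φ ⬝ᵥ (Dm A *ᵥ φ) = 0 := by
  have h : φ ⬝ᵥ (Dm A *ᵥ φ) = -(φ ⬝ᵥ (Dm A *ᵥ φ)) := by
    conv_lhs => rw [dotProduct_mulVec, ← mulVec_transpose, E1.Dm_anti, neg_mulVec, neg_dotProduct,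
      dotProduct_comm]
  linarith

theorem src_mul {A : Gauge M} {φ : Tor M × Fin 4 → ℝ} {s : Tor M × Fin 4}
    (h : ∀ t, t ≠ s → (Dm A *ᵥ φ) t = 0) : φ s * (Dm A *ᵥ φ) s = 0 := by
  rw [← dot_self A φ, dotProduct, sum_eq_single s (fun t _ ht => by rw [h t ht, mul_zero])
    (fun k => (k (mem_univ _)).elim)]

theorem eqX_of {F : Tor M → Tor M → ℝ} (hF : ∀ f g, F f g = F g f) {z : Tor M} {ρ : ℕ}
    (hM : 2 * ρ < M) {φ : Tor M × Fin 4 → ℝ} {x₀ : ℤ × ℤ} {a₀ : Fin 4} (hx : zd x₀ 0 ≤ ρ)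
    (h : ∀ t, t ≠ (z + prj M x₀, a₀) → (Dm (wF F) *ᵥ φ) t = 0)
    (h0 : wF F (hedge (z + prj M x₀, a₀)) = 0) :
    EqX ρ (fun f g => F (z + prj M f) (z + prj M g)) (fun v => chi φ (z + prj M v)) x₀ a₀ := by
  have e : ∀ v a, wF F (hedge (z + prj M v, a)) =
      F (z + prj M (v - cn (a - 1))) (z + prj M (v - cn a)) := fun v a => by
    rw [wF_hedge hF, G.prj_sub, G.prj_sub, add_sub_assoc, add_sub_assoc]
  refine ⟨fun f g => hF _ _, fun v a hv hne => ?_, by rw [← e, h0], ?_⟩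
  · have k := two_Dm (wF F) φ (z + prj M v) a
    rw [h _ fun k => hne ?_, e, add_assoc z, ← G.prj_add] at k
    · unfold HE
      linear_combination -k
    · obtain ⟨k1, k2⟩ := Prod.mk.inj k
      rw [← lft_eq z hv hM, k1, lft_eq z hx hM, k2]
  · have k := two_Dm (wF F) φ (z + prj M x₀) a₀
    rw [h0] at k
    have k1 := two_phi φ (z + prj M x₀) a₀
    have k2 := src_mul h
    rw [← sg_pow a₀]
    linear_combination 4 * k2 - (2 * φ (z + prj M x₀, a₀)) * k -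
      (sg a₀ * chi φ (z + prj M x₀) (a₀ - 1) + chi φ (z + prj M x₀) a₀) * k1

end IN3

end Vale.Agent.P144Z
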