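import Vale.Agent.P144D.I.N3.Wire
import Vale.Agent.P144D.B.Lin
import Vale.Agent.P144D.B.HomDec

/-!
Lower bounds for the superharmonic function in the cone.
-/

namespace Vale.Agent.P144Z

open Finset Matrix

namespace IN3

open B2a

/-- A cone with the origin on its boundary. -/
structure Cn (S : Set (ℤ × ℤ)) (ν : ℂ) (e : Fin 4) (κ : ℝ) : Prop where
  hν : ‖ν‖ = 1
  epi : Epi S ν κ
  he : 1 / 2 ≤ ht ν (st4 e)
  k0 : 0 < κ
  k1 : 100 * κ ≤ 1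
  ins : ∃ k, -cn k ∈ S
  out : -cn (e + 2) ∉ S

variable {S : Set (ℤ × ℤ)} {ν : ℂ} {e : Fin 4} {κ : ℝ}

theorem len_le {v : ℤ × ℤ} {r : ℕ} (h : zd v 0 ≤ r) : len v ≤ 2 * r := by
  have h1 := B1b.abs_le_zd v
  have h2 : (zd v 0 : ℝ) ≤ r := by exact_mod_cast h
  linarith [GeoA.len_le v, h1.1, h1.2]

theorem ht_cn (hν : ‖ν‖ = 1) (k : Fin 4) : |ht ν (cn k)| ≤ 2 := by
  have h := B1b.abs_ht_le hν (cn k)
  have h2 : (zd (cn k) 0 : ℝ) ≤ 1 := by exact_mod_cast HomDec.zd_cn k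
  linarith

theorem Cn.mem (h : Cn S ν e κ) {v : ℤ × ℤ} {r : ℕ} (hv : zd v 0 ≤ r)
    (ht' : 2 * κ * (r + 1) + 2 ≤ ht ν v) : v ∈ S := by
  obtain ⟨k, hk⟩ := h.ins
  have h1 := len_le (zd_cn hv k).2
  have h2 := h.epi _ hk (v + cn k) (by
    rw [B1b.ht_add]
    push_cast at h1
    linarith [mul_le_mul_of_nonneg_left h1 h.k0.le, (abs_le.1 (ht_cn h.hν k)).1])
  rwa [show -cn k + (v + cn k) = v by abel] at h2

theorem Cn.not_mem (h : Cn S ν e κ) {v : ℤ × ℤ} {r : ℕ} (hv : zd v 0 ≤ r)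
    (ht' : ht ν v ≤ -(2 * κ * (r + 1) + 2)) : v ∉ S := by
  have h1 : len (-cn (e + 2) - v) ≤ 2 * (r + 1 : ℕ) := len_le (by
    rw [← neg_add', zd_neg, add_comm]; exact (zd_cn hv _).2)
  refine GeoA.epi_out h.epi h.out ?_
  have e1 : ht ν (-cn (e + 2) - v) = -ht ν (cn (e + 2)) - ht ν v := by
    simp only [ht, Prod.fst_sub, Prod.snd_sub, Prod.fst_neg, Prod.snd_neg]
    push_cast
    ring
  rw [e1]
  push_cast at h1
  linarith [mul_le_mul_of_nonneg_left h1 h.k0.le, (abs_le.1 (ht_cn h.hν (e + 2))).2]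

theorem Cn.up (h : Cn S ν e κ) {v : ℤ × ℤ} (hv : v ∈ S) : v + st4 e ∈ S := by
  refine h.epi v hv _ ?_
  have h1 : len (st4 e) ≤ 2 * (1 : ℕ) := len_le (B1a1.zd_st4 e).le
  push_cast at h1
  linarith [mul_le_mul_of_nonneg_left h1 h.k0.le, h.k1, h.he]

theorem Cn.down (h : Cn S ν e κ) (v : ℤ × ℤ) (hv : v ∉ S) : v + st4 (e + 2) ∉ S := fun k =>
  hv (by simpa [st_st] using h.up k)

theorem Cn.ht_ge (h : Cn S ν e κ) {v : ℤ × ℤ} {a b : ℕ} (h1 : (a : ℤ) ≤ ca e v)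
    (h2 : (ca (e + 1) v).natAbs ≤ b) : (a : ℝ) / 2 - b ≤ ht ν v := by
  have k1 : (a : ℝ) ≤ ca e v := by exact_mod_cast h1
  have k2 : |(ca (e + 1) v : ℝ)| ≤ b := by
    have : |ca (e + 1) v| ≤ b := abs_le.2 (by omega)
    exact_mod_cast this
  have k3 := (abs_le.1 (GeoA.abs_mul_le k2 (B1b.abs_ht_st4 h.hν (e + 1)))).1
  rw [ht_ca ν e]
  nlinarith [h.he, (Nat.cast_nonneg a : (0 : ℝ) ≤ a)]

theorem Cn.ht_le (h : Cn S ν e κ) {v : ℤ × ℤ} {a b : ℕ} (h1 : ca e v ≤ -(a : ℤ))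
    (h2 : (ca (e + 1) v).natAbs ≤ b) : ht ν v ≤ -((a : ℝ) / 2 - b) := by
  have k1 : (ca e v : ℝ) ≤ -a := by exact_mod_cast h1
  have k2 : |(ca (e + 1) v : ℝ)| ≤ b := by
    have : |ca (e + 1) v| ≤ b := abs_le.2 (by omega)
    exact_mod_cast this
  have k3 := (abs_le.1 (GeoA.abs_mul_le k2 (B1b.abs_ht_st4 h.hν (e + 1)))).2
  rw [ht_ca ν e]
  nlinarith [h.he, (Nat.cast_nonneg a : (0 : ℝ) ≤ a)]

/-- The points of the cone around the axis, at scale `ρ`. -/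
theorem Cn.deep (h : Cn S ν e κ) {ρ : ℕ} (hρ : 16 ≤ ρ) {v : ℤ × ℤ} {a b : ℕ} (hv : zd v 0 ≤ 4 * ρ)
    (h1 : (a : ℤ) ≤ ca e v) (h2 : (ca (e + 1) v).natAbs ≤ b) (h3 : 4 * b + ρ ≤ 2 * a) : v ∈ S := by
  refine h.mem hv (le_trans ?_ (h.ht_ge h1 h2))
  have k1 : (16 : ℝ) ≤ ρ := by exact_mod_cast hρ
  have k2 : (4 : ℝ) * b + ρ ≤ 2 * a := by exact_mod_cast h3
  push_cast
  nlinarith [h.k0, h.k1]

/-- A chain of squares along the axis. -/
theorem chain (hH : HarnStmt) : ∃ c > (0 : ℝ), ∀ (N m : ℕ) (w : ℤ × ℤ → ℝ) (p : ℤ × ℤ) (e : Fin 4)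
    (A : ℝ), 1 ≤ m → 0 ≤ A →
    (∀ j ≤ N, ∀ v, zd v (p + (j * m) • st4 e) ≤ 3 * m + 1 → 0 ≤ w v ∧ SupH w v) →
    (∀ v, zd v (p + (N * m) • st4 e) ≤ m → A ≤ w v) → ∀ v, zd v p ≤ m → c ^ N * A ≤ w v := by
  obtain ⟨c, hc, H⟩ := hH 2
  refine ⟨c, hc, fun N m w p e => ?_⟩
  obtain ⟨⟨a1, -⟩, b1, -⟩ := ca_st e
  induction N with
  | zero => exact fun A _ _ _ h v hv => by simpa using h v (by simpa using hv)
  | succ N ih =>
    intro A hm hA h1 h2 v hv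
    rw [pow_succ, mul_assoc]
    refine ih (c * A) hm (by positivity) (fun j hj => h1 j (by omega)) (fun y hy => ?_) v hv
    refine H m w _ A hm hA (fun x hx => (h1 _ le_rfl x hx).1)
      (fun x hx => (h1 _ le_rfl x (by omega)).2) h2 y ?_
    rw [zd_ca' e] at hy ⊢
    simp only [ca_add, ca_smul, a1, b1] at hy ⊢
    push_cast at hy ⊢
    rw [add_mul]
    generalize (N : ℤ) * m = t at hy ⊢
    omega

variable {ρ : ℕ} {c : ℤ × ℤ → Fin 4 → ℝ} {u w : ℤ × ℤ → ℝ}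

theorem Cn.top (h : Cn S ν e κ) (hρ : 16 ≤ ρ) (f : ℤ × ℤ) (hf : Top e (4 * ρ) ρ f) :
    JJ S (4 * ρ) f :=
  ⟨h.deep hρ (top_zd (by omega) hf).le hf.1.ge hf.2 (by omega), (top_zd (by omega) hf).le⟩

theorem WP.sup' (h : WP S e (4 * ρ) ρ c u w) {v : ℤ × ℤ} (h1 : v ∈ S) (h2 : zd v 0 < 4 * ρ) :
    SupH w v :=
  h.sup ⟨h1, h2.le⟩ fun k => by have := top_zd h.hl k; omega

/-- The lower bound on a deep square. -/
theorem deep_low (hH : HarnStmt) : ∃ c₀ > (0 : ℝ), ∀ (S : Set (ℤ × ℤ)) (ν : ℂ) (e : Fin 4) (κ : ℝ)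
    (ρ : ℕ) (c : ℤ × ℤ → Fin 4 → ℝ) (u w : ℤ × ℤ → ℝ), Cn S ν e κ → 512 ≤ ρ →
    WP S e (4 * ρ) ρ c u w → ∀ v, zd v (ρ • st4 e) ≤ ρ / 32 → c₀ * u (xs e (4 * ρ)) ≤ w v := by
  obtain ⟨c₁, hc, H⟩ := chain hH
  refine ⟨c₁ ^ 88 / 16, by positivity, fun S ν e κ ρ c u w hC hρ h v hv => ?_⟩
  obtain ⟨⟨a1, -⟩, b1, -⟩ := ca_st e
  have U0 := h.U_nonneg
  have k := H 88 (ρ / 32) w (ρ • st4 e) e (u (xs e (4 * ρ)) / 16) (by omega) (by positivity)
    (fun j hj y hy => ?_) (fun y hy => ?_) v hv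
  · linarith
  · rw [zd_ca' e] at hy
    simp only [ca_add, ca_smul, a1, b1] at hy
    have j1 : j * (ρ / 32) ≤ 88 * (ρ / 32) := Nat.mul_le_mul_right _ hj
    generalize j * (ρ / 32) = t at hy j1
    have z1 : zd y 0 < 4 * ρ := by rw [zd_ca e]; omega
    exact ⟨h.w_nonneg (by omega), h.sup' (hC.deep (a := ρ - 3 * (ρ / 32) - 1)
      (b := 3 * (ρ / 32) + 1) (by omega) z1.le (by omega) (by omega) (by omega)) z1⟩
  · rw [zd_ca' e] at hy
    simp only [ca_add, ca_smul, a1, b1] at hy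
    have k := h.barrier (by omega) (fun x h1 h2 h3 => hC.deep (ρ := ρ) (a := 3 * ρ) (by omega)
      (by rw [zd_ca e]; omega) (by omega) h3 (by omega)) (v := y) (by omega) (by omega) (by omega)
    have r0 : (0 : ℝ) < ρ := by exact_mod_cast (by omega : 0 < ρ)
    have i1 : (ρ : ℝ) ≤ 2 * ((ρ : ℝ) - (4 * ρ : ℕ) + ca e y) := by
      have : (ρ : ℤ) ≤ 2 * ((ρ : ℤ) - (4 * ρ : ℕ) + ca e y) := by omega
      exact_mod_cast this
    have i2 : |4 * (ca (e + 1) y : ℝ)| ≤ ρ := by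
      have : |4 * ca (e + 1) y| ≤ ρ := abs_le.2 (by omega)
      exact_mod_cast this
    have i3 : (ρ : ℝ) ^ 2 / 8 ≤ bq e (4 * ρ) ρ y := by
      unfold bq
      have := sq_le_sq' (abs_le.1 i2).1 (abs_le.1 i2).2
      nlinarith
    have i4 := mul_le_mul_of_nonneg_left i3 U0
    refine le_of_mul_le_mul_left ?_ (show 0 < 2 * (ρ : ℝ) ^ 2 by positivity)
    linarith

/-- The linear lower bound near the wall. -/
theorem lin_low (hH : HarnStmt) (hP : HopfStmt) : ∃ c₀ > (0 : ℝ), ∃ C : ℕ, ∀ (S : Set (ℤ × ℤ))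
    (ν : ℂ) (e : Fin 4) (κ : ℝ) (ρ : ℕ) (c : ℤ × ℤ → Fin 4 → ℝ) (u w : ℤ × ℤ → ℝ), Cn S ν e κ →
    512 ≤ ρ → C * (κ * ρ + 1) ≤ ρ → WP S e (4 * ρ) ρ c u w → ∀ v, 2 * zd v 0 ≤ ρ →
      c₀ * u (xs e (4 * ρ)) * (ht ν v - C * (κ * ρ + 1)) ≤ ρ * w v := by
  obtain ⟨c₁, hc₁, H₁⟩ := deep_low hH
  obtain ⟨c₂, hc₂, C, H₂⟩ := hP
  refine ⟨c₂ * c₁ / 2, by positivity, 2 * C + 4, fun S ν e κ ρ c u w hC hρ hκ h v hv => ?_⟩
  have U0 := h.U_nonneg
  have k0 := hC.k0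
  have k1 := hC.k1
  have r0 : (0 : ℝ) ≤ κ * ρ := by positivity
  have C0 : (0 : ℝ) ≤ C := Nat.cast_nonneg C
  push_cast at hκ ⊢
  have k := H₂ (2 * ρ) w ν e (2 * κ * ((2 * ρ : ℕ) + 1) + 2) (c₁ * u (xs e (4 * ρ))) hC.hν hC.he
    (by positivity) (by positivity) (by push_cast; nlinarith)
    (fun y hy => h.w_nonneg (by omega)) (fun y h1 h2 => h.sup' (hC.mem h1 h2) (by omega))
    (fun y hy => H₁ S ν e κ ρ c u w hC hρ h y (by
      rwa [show 2 * ρ / 2 = ρ by omega, show 2 * ρ / 64 = ρ / 32 by omega] at hy)) v (by omega)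
  push_cast at k
  have k2 : ht ν v - (2 * C + 4) * (κ * ρ + 1) ≤ ht ν v - (2 * κ * (2 * ρ + 1) + 2) - C := by
    nlinarith
  have k3 := mul_le_mul_of_nonneg_left k2 (show 0 ≤ c₂ * (c₁ * u (xs e (4 * ρ))) by positivity)
  linarith

theorem WP.incr (h : WP S e (4 * ρ) ρ c u w) {f : ℤ × ℤ} (hf : zd f 0 ≤ 4 * ρ) :
    w (f + st4 e) - w f ≤ c (f + cn (e + 1)) (e + 1) ^ 2 := by
  have z := (zd_cn hf (e + 1)).2
  have h1 := h.dx.pot (f + cn (e + 1)) (e + 1) (by omega)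
  have h2 := h.dx.pot (f + cn (e + 1)) e (by omega)
  rw [add_sub_cancel_right] at h1
  rw [show f + cn (e + 1) - cn e = f + st4 e by rw [← st_cn]; abel] at h2
  linarith [sq_nonneg (c (f + cn (e + 1)) e)]

/-- The mass of the corner values is bounded below by the increase of the function. -/
theorem WP.mass (h : WP S e (4 * ρ) ρ c u w) {m n s : ℕ} (hs : m + n + 1 ≤ s) (hρ : s ≤ ρ) :
    ∑ f ∈ HomDec.box m, (w (f - n • st4 e + (2 * n) • st4 e) - w (f - n • st4 e)) ≤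
      2 * n * ∑ v ∈ HomDec.box s, ∑ k, c v k ^ 2 := by
  obtain ⟨⟨a1, -⟩, b1, -⟩ := ca_st e
  have z : ∀ f ∈ HomDec.box m, ∀ j ∈ range (2 * n), zd (f - n • st4 e + j • st4 e) 0 ≤ m + n := by
    intro f hf j hj
    rw [HomDec.mem_box, zd_ca e] at hf
    rw [mem_range] at hj
    rw [zd_ca e]
    simp only [ca_add, ca_sub, ca_smul, a1, b1]
    omega
  calc _ ≤ ∑ f ∈ HomDec.box m, ∑ j ∈ range (2 * n),
        c (f - n • st4 e + j • st4 e + cn (e + 1)) (e + 1) ^ 2 := by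
        refine sum_le_sum fun f hf => ?_
        have t := sum_range_sub (fun j => w (f - n • st4 e + j • st4 e)) (2 * n)
        rw [zero_smul, add_zero] at t
        rw [← t]
        refine sum_le_sum fun j hj => ?_
        rw [succ_nsmul, ← add_assoc]
        exact h.incr (by have := z f hf j hj; omega)
    _ ≤ ∑ _j ∈ range (2 * n), ∑ v ∈ HomDec.box s, ∑ k, c v k ^ 2 := by
        rw [sum_comm]
        refine sum_le_sum fun j hj => ?_
        rw [← sum_image (s := HomDec.box m) (g := fun f => f - n • st4 e + j • st4 e + cn (e + 1))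
          (f := fun v => c v (e + 1) ^ 2) fun x _ y _ k => by simpa using k]
        refine (sum_le_sum_of_subset_of_nonneg (fun v hv => ?_) fun _ _ _ => sq_nonneg _).trans
          (sum_le_sum fun v _ => single_le_sum (f := fun k => c v k ^ 2)
            (fun _ _ => sq_nonneg _) (mem_univ _))
        obtain ⟨f, hf, rfl⟩ := mem_image.1 hv
        exact HomDec.mem_box.2 ((zd_cn (z f hf j hj) _).2.trans hs)
    _ = _ := by simp

theorem WP.walk (h : WP S e (4 * ρ) ρ c u w) (hC : Cn S ν e κ) {f : ℤ × ℤ} (hf : f ∈ S) (n : ℕ)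
    (hn : zd f 0 + n ≤ 4 * ρ) : f + n • st4 e ∈ S ∧ w (f + n • st4 e) ≤ 4 ^ n * w f := by
  induction n with
  | zero => simpa using hf
  | succ n ih =>
    obtain ⟨h1, h2⟩ := ih (by omega)
    have z : zd (f + n • st4 e) 0 ≤ zd f 0 + n := by
      obtain ⟨⟨a1, -⟩, b1, -⟩ := ca_st e
      rw [zd_ca e, zd_ca e f]
      simp only [ca_add, ca_smul, a1, b1]
      omega
    have k := h.sup' h1 (by omega)
    have p := fun a => h.w_nonneg (v := f + n • st4 e + st4 a) (by have := zd_st z a; omega)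
    unfold SupH at k
    rw [sum_e e] at k
    rw [succ_nsmul, ← add_assoc, pow_succ]
    exact ⟨hC.up h1, by linarith [p (e + 1), p (e + 2), p (e + 3)]⟩

/-- The two lower bounds in the plane lattice. -/
theorem low (hH : HarnStmt) (hP : HopfStmt) : ∃ c₀ > (0 : ℝ), ∃ C : ℕ, 512 ≤ C ∧
    ∀ (S : Set (ℤ × ℤ)) (ν : ℂ) (e : Fin 4) (κ : ℝ) (ρ : ℕ) (c : ℤ × ℤ → Fin 4 → ℝ)
    (u w : ℤ × ℤ → ℝ), Cn S ν e κ → C ≤ ρ → WP S e (4 * ρ) ρ c u w →
      (∀ s : ℕ, C * (κ * ρ + 1) ≤ s → s ≤ ρ →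
        c₀ * u (xs e (4 * ρ)) * s ^ 2 ≤ ρ * ∑ v ∈ HomDec.box (s - 1), ∑ k, c v k ^ 2) ∧
      (κ * ρ ≤ 1 → c₀ * u (xs e (4 * ρ)) ≤ ρ * c 0 (e + 2) ^ 2) := by
  obtain ⟨c₁, hc₁, C, H⟩ := lin_low hH hP
  refine ⟨c₁ / (2 ^ 20 * 4 ^ (4 * C + 6)), by positivity, 32 * C + 512, by omega,
    fun S ν e κ ρ c u w hC hρ h => ⟨fun s h1 h2 => ?_, fun h1 => ?_⟩⟩
  all_goals
    obtain ⟨⟨a1, -⟩, b1, -⟩ := ca_st e
    have U0 := h.U_nonneg
    have k0 := hC.k0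
    have k1 := hC.k1
    have r0 : (0 : ℝ) ≤ κ * ρ := by positivity
    have C0 : (0 : ℝ) ≤ C := Nat.cast_nonneg C
    have p1 : (1 : ℝ) ≤ 4 ^ (4 * C + 6) := one_le_pow₀ (by norm_num)
    have cU : 0 ≤ c₁ * u (xs e (4 * ρ)) := by positivity
  · push_cast at h1
    have s1 : (s : ℝ) ≤ ρ := by exact_mod_cast h2
    have s2 : 512 ≤ s := by
      have : (512 : ℝ) ≤ s := by nlinarith
      exact_mod_cast this
    obtain ⟨m, hm⟩ : ∃ m, m = s / 64 := ⟨_, rfl⟩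
    have m1 : (s : ℝ) ≤ 128 * m := by exact_mod_cast (by omega : s ≤ 128 * m)
    have m0 : (0 : ℝ) < m := by exact_mod_cast (by omega : 0 < m)
    have k := h.mass (m := m) (n := 16 * m) (s := s - 1) (by omega) (by omega)
    generalize ∑ v ∈ HomDec.box (s - 1), ∑ k, c v k ^ 2 = Q at k ⊢
    have k2 : ∑ _f ∈ HomDec.box m, c₁ * u (xs e (4 * ρ)) * m ≤ ∑ f ∈ HomDec.box m, ρ *
        (w (f - (16 * m) • st4 e + (2 * (16 * m)) • st4 e) - w (f - (16 * m) • st4 e)) := by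
      refine sum_le_sum fun f hf => ?_
      rw [HomDec.mem_box, zd_ca e] at hf
      have z1 : zd (f - (16 * m) • st4 e) 0 ≤ 2 * ρ := by
        rw [zd_ca e]
        simp only [ca_sub, ca_smul, a1, b1]
        omega
      have t1 := hC.ht_le (v := f - (16 * m) • st4 e) (a := 15 * m) (b := m)
        (by simp only [ca_sub, ca_smul, a1]; omega) (by simp only [ca_sub, ca_smul, b1]; omega)
      have t2 := hC.ht_ge (v := f - (16 * m) • st4 e + (2 * (16 * m)) • st4 e) (a := 15 * m)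
        (b := m) (by simp only [ca_add, ca_sub, ca_smul, a1]; omega)
        (by simp only [ca_add, ca_sub, ca_smul, b1]; omega)
      have t3 := H S ν e κ ρ c u w hC (by omega) (by nlinarith) h
        (f - (16 * m) • st4 e + (2 * (16 * m)) • st4 e) (by
          rw [zd_ca e]
          simp only [ca_add, ca_sub, ca_smul, a1, b1]
          omega)
      push_cast at t1 t2
      rw [h.out (f - (16 * m) • st4 e) (by omega) fun k => hC.not_mem z1 (by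
        push_cast; nlinarith) k.1, sub_zero]
      exact le_trans (mul_le_mul_of_nonneg_left (by nlinarith) cU) t3
    have cb : ((HomDec.box m).card : ℝ) = (2 * m + 1) ^ 2 := FH.card_box m
    rw [sum_const, nsmul_eq_mul, ← mul_sum, cb] at k2
    have k3 := k2.trans (mul_le_mul_of_nonneg_left k (Nat.cast_nonneg ρ))
    push_cast at k3
    have k4 : 4 * m ^ 2 * (c₁ * u (xs e (4 * ρ))) ≤ 32 * (ρ * Q) := by
      refine le_of_mul_le_mul_left ?_ m0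
      nlinarith [mul_nonneg cU m0.le, mul_nonneg (mul_nonneg cU m0.le) m0.le]
    have k5 : (s : ℝ) ^ 2 ≤ 128 ^ 2 * m ^ 2 := by
      rw [← mul_pow]; exact pow_le_pow_left₀ (Nat.cast_nonneg s) m1 2
    have k6 := mul_le_mul_of_nonneg_left k5 cU
    have k7 : 0 ≤ ρ * Q := by nlinarith [mul_nonneg (sq_nonneg (m : ℝ)) cU]
    rw [div_mul_eq_mul_div, div_mul_eq_mul_div, div_le_iff₀ (by positivity)]
    nlinarith
  · obtain ⟨k, hk⟩ := hC.ins
    have z0 : zd (-cn k) 0 ≤ 1 := by rw [zd_neg]; exact HomDec.zd_cn k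
    have s1 : (32 * C + 512 : ℝ) ≤ ρ := by exact_mod_cast hρ
    have t1 := (h.walk hC hk (4 * C + 6) (by omega)).2
    have z1 := z0
    rw [zd_ca e] at z1
    have t2 := hC.ht_ge (v := -cn k + (4 * C + 6) • st4 e) (a := 4 * C + 5) (b := 1)
      (by simp only [ca_add, ca_smul, a1]; omega) (by simp only [ca_add, ca_smul, b1]; omega)
    have t3 := H S ν e κ ρ c u w hC (by omega) (by nlinarith) h (-cn k + (4 * C + 6) • st4 e) (by
      rw [zd_ca e]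
      simp only [ca_add, ca_smul, a1, b1]
      omega)
    have t4 := h.dx.pot 0 k (by simp [zd])
    have t5 := h.dx.pot 0 (e + 2) (by simp [zd])
    rw [zero_sub] at t4 t5
    rw [h.out _ (by rw [zd_neg]; have := HomDec.zd_cn (e + 2); omega) fun k => hC.out k.1] at t5
    have t6 : w (-cn k) ≤ c 0 (e + 2) ^ 2 := by linarith [sq_nonneg (c 0 k)]
    push_cast at t2
    have t7 := (mul_le_mul_of_nonneg_left (show 1 ≤ ht ν (-cn k + (4 * C + 6) • st4 e) -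
      C * (κ * ρ + 1) by nlinarith) cU).trans t3
    have t8 := mul_le_mul_of_nonneg_left
      (t1.trans (mul_le_mul_of_nonneg_left t6 (by positivity))) (Nat.cast_nonneg (α := ℝ) ρ)
    have t9 : 0 ≤ ρ * c 0 (e + 2) ^ 2 * 4 ^ (4 * C + 6) := by positivity
    rw [div_mul_eq_mul_div, div_le_iff₀ (by positivity)]
    nlinarith

end IN3

end Vale.Agent.P144Z
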