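import Vale.Agent.P144D.I.N3.Src
import Vale.Agent.P144D.B.Dec

/-!
A cone cut by a square, with a wire on the top side.
-/

namespace Vale.Agent.P144Z

open Finset Matrix

namespace IN3

open B2a

/-- The coordinate in the direction `e`. -/
def ca (e : Fin 4) (v : ℤ × ℤ) : ℤ := v.1 * (st4 e).1 + v.2 * (st4 e).2

theorem ca_add (e : Fin 4) (v v' : ℤ × ℤ) : ca e (v + v') = ca e v + ca e v' := by
  simp only [ca, Prod.fst_add, Prod.snd_add]; ring

theorem ca_sub (e : Fin 4) (v v' : ℤ × ℤ) : ca e (v - v') = ca e v - ca e v' := by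
  simp only [ca, Prod.fst_sub, Prod.snd_sub]; ring

theorem ca_smul (e : Fin 4) (n : ℕ) (v : ℤ × ℤ) : ca e (n • v) = n * ca e v := by
  rw [ca, ca, Prod.smul_fst, Prod.smul_snd, nsmul_eq_mul, nsmul_eq_mul]; ring

theorem ca_st (e : Fin 4) : (ca e (st4 e) = 1 ∧ ca e (st4 (e + 1)) = 0 ∧
    ca e (st4 (e + 2)) = -1 ∧ ca e (st4 (e + 3)) = 0) ∧ ca (e + 1) (st4 e) = 0 ∧
    ca (e + 1) (st4 (e + 1)) = 1 ∧ ca (e + 1) (st4 (e + 2)) = 0 ∧
    ca (e + 1) (st4 (e + 3)) = -1 := by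
  revert e; decide

theorem zd_ca (e : Fin 4) (v : ℤ × ℤ) : zd v 0 = max (ca e v).natAbs (ca (e + 1) v).natAbs := by
  fin_cases e <;> simp [zd, ca, st4, max_comm]

theorem zd_ca' (e : Fin 4) (v p : ℤ × ℤ) :
    zd v p = max (ca e v - ca e p).natAbs (ca (e + 1) v - ca (e + 1) p).natAbs := by
  rw [← ca_sub, ← ca_sub, ← zd_ca]; simp [zd]

theorem ca_ext (e : Fin 4) {v v' : ℤ × ℤ} (h : ca e v = ca e v')
    (h' : ca (e + 1) v = ca (e + 1) v') : v = v' := by
  fin_cases e <;> simp [ca, st4] at h h' <;> exact Prod.ext (by omega) (by omega)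

theorem ht_ca (ν : ℂ) (e : Fin 4) (v : ℤ × ℤ) :
    ht ν v = ca e v * ht ν (st4 e) + ca (e + 1) v * ht ν (st4 (e + 1)) := by
  fin_cases e <;> simp [ht, ca, st4] <;> ring

theorem sum_e (e : Fin 4) (g : Fin 4 → ℝ) : ∑ a, g a = g e + g (e + 1) + g (e + 2) + g (e + 3) := by
  fin_cases e <;> simp [Fin.sum_univ_four] <;> ring

theorem dirs (e a : Fin 4) : a = e ∨ a = e + 1 ∨ a = e + 2 ∨ a = e + 3 := by
  revert e a; decide

theorem st_inj {a e : Fin 4} (h : st4 a = st4 e) : a = e := by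
  revert a e; decide

/-- The faces of the region. -/
def JJ (S : Set (ℤ × ℤ)) (R : ℕ) (v : ℤ × ℤ) : Prop := v ∈ S ∧ zd v 0 ≤ R

/-- The faces below the wire. -/
def Top (e : Fin 4) (R l : ℕ) (f : ℤ × ℤ) : Prop := ca e f = R ∧ (ca (e + 1) f).natAbs ≤ l

/-- The pairs of faces separated by the wire. -/
def Wr (e : Fin 4) (R l : ℕ) (f g : ℤ × ℤ) : Prop :=
  (Top e R l f ∧ g = f + st4 e) ∨ (Top e R l g ∧ f = g + st4 e)

open Classical in
/-- The weights. -/
noncomputable def WW (S : Set (ℤ × ℤ)) (e : Fin 4) (R l : ℕ) (f g : ℤ × ℤ) : ℝ :=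
  if Wr e R l f g then tT else if JJ S R f ∨ JJ S R g then 1 else 0

/-- The source. -/
def xs (e : Fin 4) (R : ℕ) : ℤ × ℤ := R • st4 e + cn (e + 1)

variable {S : Set (ℤ × ℤ)} {e : Fin 4} {R l : ℕ}

theorem WW_symm (f g : ℤ × ℤ) : WW S e R l f g = WW S e R l g f := by
  classical
  unfold WW
  exact if_congr or_comm rfl (if_congr or_comm rfl rfl)

theorem WW_out (hT : ∀ f, Top e R l f → JJ S R f) {f g : ℤ × ℤ} (hf : ¬ JJ S R f)
    (hg : ¬ JJ S R g) : WW S e R l f g = 0 := by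
  unfold WW
  rw [if_neg, if_neg (by tauto)]
  rintro (h | h)
  · exact hf (hT _ h.1)
  · exact hg (hT _ h.1)

theorem WW_in {f : ℤ × ℤ} (hf : JJ S R f) {a : Fin 4} (h : ¬ (Top e R l f ∧ a = e)) :
    WW S e R l f (f + st4 a) = 1 := by
  unfold WW
  rw [if_neg, if_pos (.inl hf)]
  rintro (k | k)
  · exact h ⟨k.1, st_inj (add_left_cancel k.2)⟩
  · have k1 := congrArg (ca e) k.2
    have k2 := hf.2
    rw [ca_add _ (f + st4 a), k.1.1, (ca_st e).1.1] at k1
    rw [zd_ca e] at k2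
    omega

theorem WW_top {f : ℤ × ℤ} (hf : Top e R l f) : WW S e R l f (f + st4 e) = tT :=
  if_pos (.inl ⟨hf, rfl⟩)

theorem xs_face (e : Fin 4) (R : ℕ) :
    ca e (xs e R - cn (e - 1)) = R + 1 ∧ ca e (xs e R - cn e) = R + 1 := by
  have h : ∀ e : Fin 4, ca e (cn (e + 1)) - ca e (cn (e - 1)) = 1 ∧
      ca e (cn (e + 1)) - ca e (cn e) = 1 := by decide
  have := h e
  simp only [xs, ca_sub, ca_add, ca_smul, (ca_st e).1.1]
  omega

theorem zd_xs (e : Fin 4) (R : ℕ) : R ≤ zd (xs e R - cn (e + 1)) 0 ∧ zd (xs e R) 0 ≤ R + 1 := by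
  have h : zd (R • st4 e) 0 = R := by
    rw [zd_ca e, ca_smul, ca_smul, (ca_st e).1.1, (ca_st e).2.1]
    omega
  exact ⟨by rw [xs, add_sub_cancel_right, h], (zd_cn h.le _).2⟩

theorem not_JJ {v : ℤ × ℤ} (h : R < zd v 0) : ¬ JJ S R v := fun k => absurd k.2 (by omega)

theorem not_JJ' {v : ℤ × ℤ} (h : ca e v = R + 1) : ¬ JJ S R v :=
  not_JJ (by rw [zd_ca e]; omega)

variable {ρ : ℕ} {c : ℤ × ℤ → Fin 4 → ℝ} {u w : ℤ × ℤ → ℝ}

/-- The function on the faces is constant outside the region. -/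
theorem out_const (hT : ∀ f, Top e R l f → JJ S R f) (hS : ∀ v, v ∉ S → v + st4 (e + 2) ∉ S)
    (h : DX (R + 3) (WW S e R l) c u w (xs e R) e) :
    ∃ κ, ∀ v, zd v 0 ≤ R + 2 → ¬ JJ S R v → w v = κ := by
  have rg := ring_const (T := R) (R := R + 2) (by omega) w fun v a h1 _ h3 h4 =>
    h.adj (by omega) (WW_out hT (not_JJ h4) (not_JJ h3))
  have key : ∀ (n : ℕ) v, v ∉ S → zd v 0 ≤ R + 1 → ca e v + R + 1 ≤ n →
      w v = w ((R + 2 : ℕ), (R + 2 : ℕ)) := by
    intro n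
    induction n with
    | zero => exact fun v _ h2 h3 => rg v (by omega) (by rw [zd_ca e]; omega)
    | succ n ih =>
      intro v h1 h2 h3
      by_cases h4 : R < zd v 0
      · exact rg v (by omega) h4
      rw [← ih (v + st4 (e + 2)) (hS v h1) (zd_st (by omega) _)
        (by rw [ca_add, (ca_st e).1.2.2.1]; omega)]
      exact (h.adj (by omega) (WW_out hT (fun k => hS v h1 k.1) fun k => h1 k.1)).symm
  refine ⟨w ((R + 2 : ℕ), (R + 2 : ℕ)), fun v h1 h2 => ?_⟩
  by_cases h4 : R < zd v 0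
  · exact rg v h1 h4
  · exact key (ca e v + R + 1).toNat v (fun k => h2 ⟨k, by omega⟩) (by omega) (by omega)

theorem top_zd (hl : l ≤ R) {f : ℤ × ℤ} (hf : Top e R l f) : zd f 0 = R := by
  rw [zd_ca e]
  have := hf.1
  have := hf.2
  omega

theorem top_gT (hl : l ≤ R) (h : DX (R + 3) (WW S e R l) c u w (xs e R) e) {f : ℤ × ℤ}
    (hf : Top e R l f) : u (f + cn (e + 1)) = u (f + cn (e + 2)) ∧
      -(2 * tc) * c (f + cn (e + 2)) (e + 2) ^ 2 = FQ 1 (fun k => c (f + cn k) k) (e + 2) := by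
  have k := h.gT f (e + 2) (by rw [top_zd hl hf]; omega) (by
    rw [st_st, sub_neg_eq_add]; exact WW_top hf)
  rwa [f1] at k

/-- The function on the vertices is constant on the wire. -/
theorem wire_const (hl : l ≤ R) (h : DX (R + 3) (WW S e R l) c u w (xs e R) e) {f : ℤ × ℤ}
    (hf : Top e R l f) : u (f + cn (e + 1)) = u (xs e R) ∧ u (f + cn (e + 2)) = u (xs e R) := by
  obtain ⟨⟨a1, a2, a3, a4⟩, b1, b2, b3, b4⟩ := ca_st e
  have e1 : ∀ f : ℤ × ℤ, f + st4 (e + 1) + cn (e + 1) = f + cn (e + 2) := fun f => by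
    rw [add_assoc, st_cn, add_assoc e]; rfl
  have e2 : ∀ f : ℤ × ℤ, f + st4 (e + 3) + st4 (e + 1) = f := fun f => by
    have := back f (e + 3)
    rwa [add_assoc e] at this
  generalize hn : (ca (e + 1) f).natAbs = n
  induction n generalizing f with
  | zero =>
    have k : f = R • st4 e := ca_ext e (by rw [ca_smul, a1, hf.1, mul_one])
      (by rw [ca_smul, b1]; omega)
    rw [← (top_gT hl h hf).1, k]
    exact ⟨rfl, rfl⟩
  | succ n ih =>
    have h1 := hf.1
    have h2 := hf.2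
    rw [← (top_gT hl h hf).1, and_self]
    by_cases k : 0 ≤ ca (e + 1) f
    · have := (ih (f := f + st4 (e + 3)) ⟨by rw [ca_add]; omega, by rw [ca_add]; omega⟩
        (by rw [ca_add]; omega)).2
      rwa [← e1, e2] at this
    · have := (ih (f := f + st4 (e + 1)) ⟨by rw [ca_add]; omega, by rw [ca_add]; omega⟩
        (by rw [ca_add]; omega)).1
      rwa [e1, ← (top_gT hl h hf).1] at this

theorem wire_vert (hl : l ≤ R) (h : DX (R + 3) (WW S e R l) c u w (xs e R) e) {v : ℤ × ℤ}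
    {a : Fin 4} (hW : Wr e R l (v - cn (a - 1)) (v - cn a)) : u v = u (xs e R) := by
  have d1 : ∀ a e : Fin 4, cn (a - 1) - cn a = st4 e → a - 1 = e + 2 := by decide
  have d2 : ∀ a e : Fin 4, cn a - cn (a - 1) = st4 e → a = e + 1 := by decide
  rcases hW with k | k
  · have k1 := d1 a e (by rw [← add_left_cancel_iff (a := v - cn (a - 1)), ← k.2]; abel)
    rw [← (wire_const hl h k.1).2, k1, sub_add_cancel]
  · have k1 := d2 a e (by rw [← add_left_cancel_iff (a := v - cn a), ← k.2]; abel)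
    rw [← (wire_const hl h k.1).1, ← k1, sub_add_cancel]

/-- The inequality at the faces below the wire. -/
theorem top_ineq (hl : l ≤ R) (hT : ∀ f, Top e R l f → JJ S R f)
    (h : DX (R + 3) (WW S e R l) c u w (xs e R) e) {f : ℤ × ℤ} (hf : Top e R l f) :
    w (f + st4 (e + 1)) - w f + (w (f + st4 (e + 2)) - w f) + (w (f + st4 (e + 3)) - w f) +
      2 * tc * (u (xs e R) - w f) ≤ 0 := by
  have hz := top_zd hl hf
  have g : ∀ a, a ≠ e → w f - w (f + st4 a) = FQ 1 (fun k => c (f + cn k) k) (a + 2) := by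
    intro a ha
    have k := h.g1 f (a + 2) (by omega) (by
      rw [st_st, sub_neg_eq_add]; exact WW_in (hT f hf) fun k => ha k.2)
    rwa [st_st, sub_neg_eq_add] at k
  have n : ∀ e : Fin 4, e + 1 ≠ e ∧ e + 2 ≠ e ∧ e + 3 ≠ e := by decide
  have k := fest fun k => c (f + cn k) k
  have k1 := h.pot (f + cn (e + 2)) (e + 2) (by have := (zd_cn hz.le (e + 2)).2; omega)
  rw [← sum_rot, sum_e e, ← g _ (n e).1, ← g _ (n e).2.1, ← g _ (n e).2.2,
    ← (top_gT hl h hf).2, ← k1, add_sub_cancel_right, (wire_const hl h hf).2] at k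
  linarith

/-- The normalised pair. -/
structure WP (S : Set (ℤ × ℤ)) (e : Fin 4) (R l : ℕ) (c : ℤ × ℤ → Fin 4 → ℝ)
    (u w : ℤ × ℤ → ℝ) : Prop where
  hl : l ≤ R
  hT : ∀ f, Top e R l f → JJ S R f
  dx : DX (R + 3) (WW S e R l) c u w (xs e R) e
  out : ∀ v, zd v 0 ≤ R + 2 → ¬ JJ S R v → w v = 0

theorem exists_WP (hl : l ≤ R) (hT : ∀ f, Top e R l f → JJ S R f)
    (hS : ∀ v, v ∉ S → v + st4 (e + 2) ∉ S) (h : DX (R + 3) (WW S e R l) c u w (xs e R) e) :
    ∃ u w, WP S e R l c u w := by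
  obtain ⟨κ, hκ⟩ := out_const hT hS h
  exact ⟨_, _, hl, hT, h.shift κ, fun v h1 h2 => by rw [hκ v h1 h2, sub_self]⟩

theorem WP.U_nonneg (h : WP S e R l c u w) : 0 ≤ u (xs e R) := by
  have k := h.dx.pot (xs e R) e (by have := (zd_xs e R).2; omega)
  rw [h.out _ (zd_cn (zd_xs e R).2 e).1 (not_JJ' (xs_face e R).2), sub_zero] at k
  rw [k]
  positivity

theorem WP.sup (h : WP S e R l c u w) {f : ℤ × ℤ} (hf : JJ S R f) (hn : ¬ Top e R l f) :
    SupH w f :=
  h.dx.sup (by have := hf.2; omega) fun _ => WW_in hf fun k => hn k.1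

theorem WP.w_nonneg (h : WP S e R l c u w) {v : ℤ × ℤ} (hv : zd v 0 ≤ R + 2) : 0 ≤ w v := by
  refine neg_nonpos.1 (maxp_box (R + 2) (fun v => -w v) (fun v hv => ?_)
    (fun v hv h1 h2 => ?_) v hv)
  · rw [h.out v hv.le (not_JJ (by omega)), neg_zero]
  have hJ : JJ S R v := by
    by_contra k
    rw [h.out v (by omega) k, neg_zero] at h1
    exact lt_irrefl _ h1
  by_cases hn : Top e R l v
  · have := top_ineq h.hl h.hT h.dx hn
    have := h.U_nonneg
    have := PairDecay.tc_ge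
    nlinarith [h2 (e + 1), h2 (e + 2), h2 (e + 3)]
  · exact min_of_sup (h.sup hJ hn) h2

theorem WP.sub (h : WP S e R l c u w) {pr : ℤ × ℤ → Fin 4 → Prop} {v : ℤ × ℤ}
    (hv : zd v 0 ≤ R + 1) (hne : v ≠ xs e R) (hW : ∀ a, ¬ Wr e R l (v - cn (a - 1)) (v - cn a))
    (hp : ∀ a, pr v a ↔ JJ S R (v - cn (a - 1)) ∨ JJ S R (v - cn a)) :
    0 ≤ ∑ a, GG u pr v a ∧ ∑ k, c v k ^ 2 ≤ 7 * ∑ a, |GG u pr v a| := by
  refine h.dx.sub (by omega) hne (fun a k => ?_) fun a k => ?_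
  · rw [WW, if_neg (hW a), if_pos ((hp a).1 k)]
  · rw [hp] at k
    exact ⟨by rw [WW, if_neg (hW a), if_neg k], h.out _ (zd_cn hv a).1 fun k' => k (.inr k')⟩

theorem zero_of_rem {d : Fin 4 → ℝ} (h : ∀ a, sg a * d (a - 1) = -d a) (a : Fin 4) : d a = 0 := by
  have h0 := h 0
  have h1 := h 1
  have h2 := h 2
  have h3 := h 3
  rw [show (0 : Fin 4) - 1 = 3 from rfl] at h0
  simp [sg] at h0 h1 h2 h3
  fin_cases a <;> simp <;> linarith

theorem WP.u_le (h : WP S e R l c u w) {v : ℤ × ℤ} (hv : zd v 0 ≤ R + 2) : u v ≤ u (xs e R) := by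
  have tc0 := PairDecay.tc_ge
  have U0 := h.U_nonneg
  refine sub_nonpos.1 (maxp_box (R + 2) (fun v => u v - u (xs e R)) (fun v hv => ?_)
    (fun v hv h1 h2 => ?_) v hv)
  · have far : ∀ k, ¬ JJ S R (v - cn k) := fun k => not_JJ (by
      have := (zd_cn (le_refl (zd (v - cn k) 0)) k).2
      rw [sub_add_cancel] at this
      omega)
    have hne : v ≠ xs e R := fun k => by
      have := (zd_xs e R).2
      rw [← k] at this
      omega
    have k0 := fun a => h.dx.v0 v a (by omega) (WW_out h.hT (far _) (far _))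
    have k1 := fest (c v)
    have k2 : ∀ a, FQ 1 (c v) a = -(2 * tc) * c v a ^ 2 := fun a =>
      ((k0 a).2 fun k => hne (Prod.mk.inj k).1).symm
    simp only [k2, Fin.sum_univ_four] at k1
    have k3 := h.dx.pot v 0 (by omega)
    rw [h.out _ (by rw [B1a1.sub_cn_zero]; omega) (far 0)] at k3
    nlinarith [sq_nonneg (c v 0), sq_nonneg (c v 1), sq_nonneg (c v 2), sq_nonneg (c v 3)]
  have k := (h.sub (pr := fun v a => JJ S R (v - cn (a - 1)) ∨ JJ S R (v - cn a)) (v := v)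
    (by omega) (fun k => by rw [k, sub_self] at h1; exact lt_irrefl _ h1)
    (fun a k => by rw [wire_vert h.hl h.dx k, sub_self] at h1; exact lt_irrefl _ h1)
    fun a => Iff.rfl).1
  have k1 := B1a1.four_zero (fun a => by
    unfold GG
    split_ifs
    · linarith [h2 a]
    · nlinarith) k 0
  unfold GG at k1
  split_ifs at k1
  · linarith
  · nlinarith

/-- The harmonic barrier below the wire. -/
noncomputable def bq (e : Fin 4) (R l : ℕ) (v : ℤ × ℤ) : ℝ :=
  ((l : ℝ) - R + ca e v) ^ 2 - (ca (e + 1) v : ℝ) ^ 2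

theorem WP.barrier (h : WP S e R l c u w) (hl : 8 ≤ l)
    (hS : ∀ v, (R : ℤ) - l ≤ ca e v → ca e v ≤ R → (ca (e + 1) v).natAbs ≤ l → v ∈ S)
    {v : ℤ × ℤ} (h1 : (R : ℤ) - l < ca e v) (h2 : ca e v ≤ R) (h3 : (ca (e + 1) v).natAbs < l) :
    u (xs e R) * bq e R l v ≤ 2 * l ^ 2 * w v := by
  classical
  obtain ⟨⟨a1, a2, a3, a4⟩, b1, b2, b3, b4⟩ := ca_st e
  have hlR := h.hl
  have U0 := h.U_nonneg
  have tc0 := PairDecay.tc_ge
  have l8 : (8 : ℝ) ≤ l := by exact_mod_cast hl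
  generalize hU : u (xs e R) = U at U0
  have mem : ∀ y, y ∈ (Finset.Icc (-(R : ℤ)) R ×ˢ Finset.Icc (-(R : ℤ)) R).filter
      (fun y => (R : ℤ) - l < ca e y ∧ (ca (e + 1) y).natAbs < l) ↔
      (R : ℤ) - l < ca e y ∧ ca e y ≤ R ∧ (ca (e + 1) y).natAbs < l := fun y => by
    rw [Finset.mem_filter, B1a1.mem_box, zd_ca e]
    omega
  have q0 : ∀ y, bq e R l (y + st4 e) - bq e R l y = 2 * ((l : ℝ) - R + ca e y) + 1 := fun y => by
    simp only [bq, ca_add, a1, b1]; push_cast; ring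
  have q1 : ∀ y, bq e R l (y + st4 (e + 1)) - bq e R l y + (bq e R l (y + st4 (e + 2)) - bq e R l y)
      + (bq e R l (y + st4 (e + 3)) - bq e R l y) = -(2 * ((l : ℝ) - R + ca e y) + 1) := fun y => by
    simp only [bq, ca_add, a2, a3, a4, b2, b3, b4]; push_cast; ring
  have k := maxp _ (fun y => if ca e y ≤ R then U * bq e R l y - 2 * l ^ 2 * w y else 0)
    (fun y hy a ha => ?_) (fun y hy k1 k2 => ?_) v ((mem v).2 ⟨h1, h2, h3⟩)
  · rw [if_pos h2] at k
    linarith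
  · rw [mem] at hy ha
    split_ifs with k1
    · have w0 := h.w_nonneg (v := y + st4 a) (by
        have := zd_st (v := y) (r := R) (by rw [zd_ca e]; omega) a
        omega)
      have : bq e R l (y + st4 a) ≤ 0 := by
        have i1 : ((l : ℤ) - R + ca e (y + st4 a)) ^ 2 ≤ ca (e + 1) (y + st4 a) ^ 2 := by
          rw [sq_le_sq, ← Int.natCast_natAbs, ← Int.natCast_natAbs]
          rw [ca_add] at k1
          rw [ca_add, ca_add] at ha ⊢
          rcases dirs e a with rfl | rfl | rfl | rfl <;> omega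
        have i2 : ((l : ℝ) - R + ca e (y + st4 a)) ^ 2 ≤ (ca (e + 1) (y + st4 a) : ℝ) ^ 2 := by
          exact_mod_cast i1
        unfold bq
        linarith
      nlinarith [mul_nonneg (sq_nonneg (l : ℝ)) w0]
    · exact le_rfl
  · rw [mem] at hy
    have hJ : JJ S R y := ⟨hS y hy.1.le hy.2.1 hy.2.2.le, by rw [zd_ca e]; omega⟩
    have m1 := k2 (e + 1)
    have m2 := k2 (e + 2)
    have m3 := k2 (e + 3)
    simp only [ca_add, a2, a3, a4] at m1 m2 m3
    rw [if_pos (by omega), if_pos hy.2.1] at m1 m2 m3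
    rw [if_pos hy.2.1] at k1
    by_cases hn : Top e R l y
    · exfalso
      have t1 := top_ineq hlR h.hT h.dx hn
      have t2 := q1 y
      have t3 : (ca e y : ℝ) = R := by exact_mod_cast hn.1
      have t4 : bq e R l y ≤ l ^ 2 := by
        unfold bq
        rw [t3]
        nlinarith [sq_nonneg (ca (e + 1) y : ℝ)]
      have w0 := h.w_nonneg (v := y) (by have := hJ.2; omega)
      rw [hU] at t1
      rw [t3] at t2
      have l2 : (0 : ℝ) < l ^ 2 := by positivity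
      have t5 : 2 * w y < U := by nlinarith
      have t6 : 2 * l ^ 2 * (2 * tc * (U - w y)) ≤ U * (2 * l + 1) := by nlinarith
      have t7 : U / 4 ≤ 2 * tc * (U - w y) := by nlinarith
      have t8 : 2 * (l : ℝ) + 1 < l ^ 2 / 2 := by nlinarith
      linarith [mul_le_mul_of_nonneg_left t7 l2.le,
        mul_lt_mul_of_pos_left t8 (show 0 < U by linarith)]
    · have t1 := h.sup hJ hn
      have lt : ca e y < R := lt_of_le_of_ne hy.2.1 fun k => hn ⟨k, hy.2.2.le⟩
      have m0 := k2 e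
      simp only [ca_add, a1] at m0
      rw [if_pos (by omega), if_pos hy.2.1] at m0
      unfold SupH at t1
      rw [sum_e e] at t1
      have t2 := q0 y
      have t3 := q1 y
      have l2 : (0 : ℝ) ≤ l ^ 2 := by positivity
      have t4 : 0 ≤ U * (bq e R l (y + st4 e) - bq e R l y + (bq e R l (y + st4 (e + 1)) -
          bq e R l y + (bq e R l (y + st4 (e + 2)) - bq e R l y) +
          (bq e R l (y + st4 (e + 3)) - bq e R l y))) := by rw [t2, t3]; simp
      have t5 := mul_le_mul_of_nonneg_left t1 l2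
      rw [if_pos hy.2.1]
      rcases dirs e 0 with k | k | k | k <;> rw [k, ca_add, if_pos (by omega)] <;> linarith

end IN3

end Vale.Agent.P144Z
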